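import Mathlib

/-!
# A sharpened Cauchy–Schwarz step for directions in space
-/

namespace Vale.Agent.P237.General

open Finset

/-- Quartic majorant of the absolute value, touching at `1 / √5` and `1`. -/
theorem abs_le_quartic {x : ℝ} (hx : |x| ≤ 1) :
    |x| ≤ (1 + √5) / 16 + (7 * √5 - 5) / 8 * x ^ 2 - (15 * √5 - 25) / 16 * x ^ 4 := by
  have ht : √(5 : ℝ) * √5 = 5 := Real.mul_self_sqrt (by norm_num)
  have h2 : (2 : ℝ) ≤ √5 := Real.le_sqrt_of_sq_le (by norm_num)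
  set t := √(5 : ℝ)
  set y := |x| with hy
  have hy0 : 0 ≤ y := abs_nonneg x
  have e2 : x ^ 2 = y ^ 2 := (sq_abs x).symm
  rw [show x ^ 4 = (x ^ 2) ^ 2 by ring, e2]
  have key : (1 + t) / 16 + (7 * t - 5) / 8 * y ^ 2 - (15 * t - 25) / 16 * (y ^ 2) ^ 2 - y =
      (15 * t - 25) / 16 * ((y - t / 5) ^ 2 * ((1 - y) * (y + 1 + 2 * t / 5))) := by
    ring_nf
    have q2 : t ^ 2 = 5 := by rw [sq]; exact ht
    have q3 : t ^ 3 = 5 * t := by rw [pow_succ, q2]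
    have q4 : t ^ 4 = 25 := by rw [show t ^ 4 = t ^ 2 * t ^ 2 by ring, q2]; norm_num
    simp only [q4, q3, q2]
    ring
  have : 0 ≤ (15 * t - 25) / 16 * ((y - t / 5) ^ 2 * ((1 - y) * (y + 1 + 2 * t / 5))) :=
    mul_nonneg (by linarith) (mul_nonneg (sq_nonneg _) (mul_nonneg (by linarith) (by linarith)))
  linarith

theorem sum_mul_square {ι : Type*} (s : Finset ι) (A f : ι → ℝ) :
    ∑ i ∈ s, ∑ j ∈ s, A i * A j * (f i * f j) = (∑ i ∈ s, A i * f i) ^ 2 := by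
  rw [sq, sum_mul_sum]
  exact sum_congr rfl fun i _ => sum_congr rfl fun j _ => by ring

/-- The quartic frame potential of unit vectors in space is at least `S ^ 2 / 5`. -/
theorem quartic_ge {ι : Type*} (s : Finset ι) (A x y z : ι → ℝ)
    (h1 : ∀ i ∈ s, x i ^ 2 + y i ^ 2 + z i ^ 2 = 1) :
    (∑ i ∈ s, A i) ^ 2 / 5 ≤
      ∑ i ∈ s, ∑ j ∈ s, A i * A j * (x i * x j + y i * y j + z i * z j) ^ 4 := by
  have hexp : ∀ i j, A i * A j * (x i * x j + y i * y j + z i * z j) ^ 4 =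
      A i * A j * (x i ^ 4 * x j ^ 4) + A i * A j * (y i ^ 4 * y j ^ 4)
      + A i * A j * (z i ^ 4 * z j ^ 4)
      + 6 * (A i * A j * ((x i ^ 2 * y i ^ 2) * (x j ^ 2 * y j ^ 2)))
      + 6 * (A i * A j * ((y i ^ 2 * z i ^ 2) * (y j ^ 2 * z j ^ 2)))
      + 6 * (A i * A j * ((x i ^ 2 * z i ^ 2) * (x j ^ 2 * z j ^ 2)))
      + 4 * (A i * A j * ((x i ^ 3 * y i) * (x j ^ 3 * y j)))
      + 4 * (A i * A j * ((x i ^ 3 * z i) * (x j ^ 3 * z j)))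
      + 4 * (A i * A j * ((y i ^ 3 * x i) * (y j ^ 3 * x j)))
      + 4 * (A i * A j * ((y i ^ 3 * z i) * (y j ^ 3 * z j)))
      + 4 * (A i * A j * ((z i ^ 3 * x i) * (z j ^ 3 * x j)))
      + 4 * (A i * A j * ((z i ^ 3 * y i) * (z j ^ 3 * y j)))
      + 12 * (A i * A j * ((x i ^ 2 * y i * z i) * (x j ^ 2 * y j * z j)))
      + 12 * (A i * A j * ((y i ^ 2 * x i * z i) * (y j ^ 2 * x j * z j)))
      + 12 * (A i * A j * ((z i ^ 2 * x i * y i) * (z j ^ 2 * x j * y j))) :=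
    fun i j => by ring
  simp only [hexp, sum_add_distrib, ← mul_sum, sum_mul_square]
  have hS : ∑ i ∈ s, A i = ∑ i ∈ s, A i * x i ^ 4 + ∑ i ∈ s, A i * y i ^ 4
      + ∑ i ∈ s, A i * z i ^ 4 + 2 * (∑ i ∈ s, A i * (x i ^ 2 * y i ^ 2)
      + ∑ i ∈ s, A i * (y i ^ 2 * z i ^ 2) + ∑ i ∈ s, A i * (x i ^ 2 * z i ^ 2)) := by
    simp only [← sum_add_distrib, mul_sum]
    refine sum_congr rfl fun i hi => ?_
    linear_combination (-A i * (x i ^ 2 + y i ^ 2 + z i ^ 2 + 1)) * h1 i hi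
  rw [hS]
  set a := ∑ i ∈ s, A i * x i ^ 4
  set b := ∑ i ∈ s, A i * y i ^ 4
  set c := ∑ i ∈ s, A i * z i ^ 4
  set p := ∑ i ∈ s, A i * (x i ^ 2 * y i ^ 2)
  set q := ∑ i ∈ s, A i * (y i ^ 2 * z i ^ 2)
  set r := ∑ i ∈ s, A i * (x i ^ 2 * z i ^ 2)
  have hmain : (a + b + c + 2 * (p + q + r)) ^ 2 / 5 ≤
      a ^ 2 + b ^ 2 + c ^ 2 + 6 * p ^ 2 + 6 * q ^ 2 + 6 * r ^ 2 := by
    nlinarith [sq_nonneg (a - b), sq_nonneg (a - c), sq_nonneg (b - c), sq_nonneg (a - 3 * p),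
      sq_nonneg (a - 3 * q), sq_nonneg (a - 3 * r), sq_nonneg (b - 3 * p), sq_nonneg (b - 3 * q),
      sq_nonneg (b - 3 * r), sq_nonneg (c - 3 * p), sq_nonneg (c - 3 * q), sq_nonneg (c - 3 * r),
      sq_nonneg (p - q), sq_nonneg (p - r), sq_nonneg (q - r)]
  refine hmain.trans ?_
  nlinarith [sq_nonneg (∑ i ∈ s, A i * (x i ^ 3 * y i)), sq_nonneg (∑ i ∈ s, A i * (x i ^ 3 * z i)),
    sq_nonneg (∑ i ∈ s, A i * (y i ^ 3 * x i)), sq_nonneg (∑ i ∈ s, A i * (y i ^ 3 * z i)),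
    sq_nonneg (∑ i ∈ s, A i * (z i ^ 3 * x i)), sq_nonneg (∑ i ∈ s, A i * (z i ^ 3 * y i)),
    sq_nonneg (∑ i ∈ s, A i * (x i ^ 2 * y i * z i)),
    sq_nonneg (∑ i ∈ s, A i * (y i ^ 2 * x i * z i)),
    sq_nonneg (∑ i ∈ s, A i * (z i ^ 2 * x i * y i))]

/-- The weighted sum of absolute inner products in isotropic position. -/
theorem sum_abs_inner_le {ι : Type*} (s : Finset ι) (A : ι → ℝ)
    (v : ι → EuclideanSpace ℝ (Fin 3)) (hA : ∀ i ∈ s, 0 ≤ A i) (h1 : ∀ i ∈ s, ‖v i‖ = 1)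
    (hiso : ∀ u : EuclideanSpace ℝ (Fin 3),
      ∑ i ∈ s, A i * (inner ℝ (v i) u) ^ 2 = (∑ i ∈ s, A i) / 3 * ‖u‖ ^ 2) :
    ∑ i ∈ s, ∑ j ∈ s, A i * A j * |inner ℝ (v i) (v j)| ≤
      (∑ i ∈ s, A i) ^ 2 * ((1 + √5) / 6) := by
  set S := ∑ i ∈ s, A i with hS
  have hin : ∀ i j, inner ℝ (v i) (v j) =
      v i 0 * v j 0 + v i 1 * v j 1 + v i 2 * v j 2 := fun i j => by
    simp [PiLp.inner_apply, Fin.sum_univ_three, mul_comm]
  have hu : ∀ i ∈ s, v i 0 ^ 2 + v i 1 ^ 2 + v i 2 ^ 2 = 1 := fun i hi => by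
    have h := real_inner_self_eq_norm_sq (v i)
    rw [h1 i hi, hin] at h
    linarith
  have h4 := quartic_ge s A (fun i => v i 0) (fun i => v i 1) (fun i => v i 2) hu
  have h2 : ∑ i ∈ s, ∑ j ∈ s, A i * A j * (inner ℝ (v i) (v j)) ^ 2 = S ^ 2 / 3 := by
    have hrow : ∀ i ∈ s, ∑ j ∈ s, A i * A j * (inner ℝ (v i) (v j)) ^ 2 = A i * (S / 3) := by
      intro i hi
      have h := hiso (v i)
      rw [h1 i hi, one_pow, mul_one] at h
      rw [← h, mul_sum]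
      exact sum_congr rfl fun j _ => by rw [real_inner_comm (v i) (v j)]; ring
    rw [sum_congr rfl hrow, ← sum_mul, ← hS]
    ring
  have hc : 0 ≤ (15 * √5 - 25) / 16 := by
    have : (2 : ℝ) ≤ √5 := Real.le_sqrt_of_sq_le (by norm_num)
    linarith
  calc ∑ i ∈ s, ∑ j ∈ s, A i * A j * |inner ℝ (v i) (v j)|
      ≤ ∑ i ∈ s, ∑ j ∈ s, ((1 + √5) / 16 * (A i * A j) +
          (7 * √5 - 5) / 8 * (A i * A j * (inner ℝ (v i) (v j)) ^ 2) -
          (15 * √5 - 25) / 16 * (A i * A j * (inner ℝ (v i) (v j)) ^ 4)) := by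
        refine sum_le_sum fun i hi => sum_le_sum fun j hj => ?_
        have hle : |inner ℝ (v i) (v j)| ≤ 1 := by
          simpa [h1 i hi, h1 j hj] using abs_real_inner_le_norm (v i) (v j)
        have := mul_le_mul_of_nonneg_left (abs_le_quartic hle) (mul_nonneg (hA i hi) (hA j hj))
        linarith
    _ = (1 + √5) / 16 * S ^ 2 + (7 * √5 - 5) / 8 * (S ^ 2 / 3) -
          (15 * √5 - 25) / 16 * ∑ i ∈ s, ∑ j ∈ s, A i * A j *
            (v i 0 * v j 0 + v i 1 * v j 1 + v i 2 * v j 2) ^ 4 := by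
        have h0' : ∑ i ∈ s, A i * S = S ^ 2 := by rw [← sum_mul, ← hS]; ring
        simp only [sum_sub_distrib, sum_add_distrib, ← mul_sum, ← hS, h0', h2]
        simp only [hin]
    _ ≤ (1 + √5) / 16 * S ^ 2 + (7 * √5 - 5) / 8 * (S ^ 2 / 3) -
          (15 * √5 - 25) / 16 * (S ^ 2 / 5) := by
        gcongr
    _ = S ^ 2 * ((1 + √5) / 6) := by ring

/-- In isotropic position the areas over the shadows sum to at least `3 (√5 - 1)`. -/
theorem sum_div_shadow_ge {ι : Type*} (s : Finset ι) (hs : s.Nonempty) (A : ι → ℝ)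
    (v : ι → EuclideanSpace ℝ (Fin 3)) (hA : ∀ i ∈ s, 0 < A i) (h1 : ∀ i ∈ s, ‖v i‖ = 1)
    (hiso : ∀ u : EuclideanSpace ℝ (Fin 3),
      ∑ i ∈ s, A i * (inner ℝ (v i) u) ^ 2 = (∑ i ∈ s, A i) / 3 * ‖u‖ ^ 2) :
    3 * (√5 - 1) ≤
      ∑ i ∈ s, A i / ((∑ j ∈ s, A j * |inner ℝ (v i) (v j)|) / 2) := by
  set P : ι → ℝ := fun i => (∑ j ∈ s, A j * |inner ℝ (v i) (v j)|) / 2 with hP
  set S := ∑ i ∈ s, A i with hS
  have hS0 : 0 < S := sum_pos hA hs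
  have hP0 : ∀ i ∈ s, 0 < P i := by
    intro i hi
    have h := single_le_sum (f := fun j => A j * |inner ℝ (v i) (v j)|)
      (fun j hj => mul_nonneg (hA j hj).le (abs_nonneg _)) hi
    simp only [real_inner_self_eq_norm_sq, h1 i hi, one_pow, abs_one, mul_one] at h
    have := hA i hi
    simp only [hP]
    linarith
  have hcs := sq_sum_div_le_sum_sq_div s A (g := fun i => A i * P i)
    (fun i hi => mul_pos (hA i hi) (hP0 i hi))
  have he : ∑ i ∈ s, A i ^ 2 / (A i * P i) = ∑ i ∈ s, A i / P i :=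
    sum_congr rfl fun i hi => by
      have := (hA i hi).ne'
      have := (hP0 i hi).ne'
      field_simp
  have hT : ∑ i ∈ s, A i * P i =
      (∑ i ∈ s, ∑ j ∈ s, A i * A j * |inner ℝ (v i) (v j)|) / 2 := by
    rw [sum_div]
    refine sum_congr rfl fun i _ => ?_
    simp only [hP]
    rw [mul_div_assoc', mul_sum]
    congr 1
    exact sum_congr rfl fun j _ => by ring
  have hle := sum_abs_inner_le s A v (fun i hi => (hA i hi).le) h1 hiso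
  have hpos : 0 < ∑ i ∈ s, A i * P i := sum_pos (fun i hi => mul_pos (hA i hi) (hP0 i hi)) hs
  rw [he, div_le_iff₀ hpos] at hcs
  have ht : √(5 : ℝ) * √5 = 5 := Real.mul_self_sqrt (by norm_num)
  have ht1 : (1 : ℝ) ≤ √5 := Real.le_sqrt_of_sq_le (by norm_num)
  have hD : ∑ i ∈ s, A i * P i ≤ S ^ 2 * ((1 + √5) / 12) := by rw [hT]; linarith
  show 3 * (√5 - 1) ≤ ∑ i ∈ s, A i / P i
  have hX : 0 ≤ ∑ i ∈ s, A i / P i := sum_nonneg fun i hi => (div_pos (hA i hi) (hP0 i hi)).le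
  have h12 : S ^ 2 ≤ S ^ 2 * ((∑ i ∈ s, A i / P i) * ((1 + √5) / 12)) := by
    calc S ^ 2 ≤ (∑ i ∈ s, A i / P i) * ∑ i ∈ s, A i * P i := hcs
      _ ≤ (∑ i ∈ s, A i / P i) * (S ^ 2 * ((1 + √5) / 12)) := mul_le_mul_of_nonneg_left hD hX
      _ = _ := by ring
  have h13 : 1 ≤ (∑ i ∈ s, A i / P i) * ((1 + √5) / 12) :=
    le_of_mul_le_mul_left (by linarith) (pow_pos hS0 2)
  nlinarith

end Vale.Agent.P237.General
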