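import Mathlib
import Vale.Agent.P237.General.Quartic

/-!
# A position in which a finite weighted family of normals is isotropic

Minimising `∑ A i ‖L (v i)‖` over maps of determinant one and testing the minimiser against
shears gives an isotropic family; pulled back, this gives one direction per normal.
-/

namespace Vale.Agent.P237.General

open Finset Module
open scoped RealInnerProductSpace

variable {E : Type*} [NormedAddCommGroup E] [InnerProductSpace ℝ E] [FiniteDimensional ℝ E]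

/-- A minimiser of the weighted length over maps of determinant one. -/
theorem exists_min_det_one {ι : Type*} (s : Finset ι) (A : ι → ℝ) (v : ι → E)
    (hA : ∀ i ∈ s, 0 < A i) (hspan : Submodule.span ℝ (v '' (s : Set ι)) = ⊤) :
    ∃ L : E →L[ℝ] E, L.det = 1 ∧ ∀ M : E →L[ℝ] E, M.det = 1 →
      ∑ i ∈ s, A i * ‖L (v i)‖ ≤ ∑ i ∈ s, A i * ‖M (v i)‖ := by
  set f : (E →L[ℝ] E) → ℝ := fun L => ∑ i ∈ s, A i * ‖L (v i)‖ with hf
  have hfc : Continuous f := by
    refine continuous_finsetSum _ fun i _ => continuous_const.mul ?_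
    exact ((ContinuousLinearMap.apply ℝ E (v i)).continuous).norm
  have hone : (1 : E →L[ℝ] E).det = 1 := LinearMap.det_id
  have hzero : ∀ L : E →L[ℝ] E, f L = 0 → L = 0 := by
    intro L hL
    have h := (sum_eq_zero_iff_of_nonneg fun i hi =>
      mul_nonneg (hA i hi).le (norm_nonneg _)).1 hL
    have hL0 : (L : E →ₗ[ℝ] E) = 0 := by
      refine LinearMap.ext_on hspan ?_
      rintro _ ⟨i, hi, rfl⟩
      simpa [(hA i hi).ne'] using h i hi
    exact ContinuousLinearMap.coe_injective hL0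
  obtain ⟨c, hc, hlow⟩ : ∃ c : ℝ, 0 < c ∧ ∀ L : E →L[ℝ] E, c * ‖L‖ ≤ f L := by
    rcases Set.eq_empty_or_nonempty (Metric.sphere (0 : E →L[ℝ] E) 1) with hS | hS
    · refine ⟨1, one_pos, fun L => ?_⟩
      rcases eq_or_ne L 0 with rfl | hne
      · simp [hf]
      · exfalso
        have : ‖L‖⁻¹ • L ∈ Metric.sphere (0 : E →L[ℝ] E) 1 := by
          simp [norm_smul, hne]
        rwa [hS] at this
    · obtain ⟨M, hM, hmin⟩ := (isCompact_sphere (0 : E →L[ℝ] E) 1).exists_isMinOn hS hfc.continuousOn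
      have hM1 : ‖M‖ = 1 := by simpa using hM
      have hpos : 0 < f M := lt_of_le_of_ne (sum_nonneg fun i hi =>
        mul_nonneg (hA i hi).le (norm_nonneg _)) fun h => by simp [hzero M h.symm] at hM1
      refine ⟨f M, hpos, fun L => ?_⟩
      rcases eq_or_ne L 0 with rfl | hne
      · simp [hf]
      · have h := hmin (show ‖L‖⁻¹ • L ∈ Metric.sphere (0 : E →L[ℝ] E) 1 by
          simp [norm_smul, hne])
        have hscale : f (‖L‖⁻¹ • L) = ‖L‖⁻¹ * f L := by
          simp only [hf, mul_sum]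
          refine sum_congr rfl fun i _ => ?_
          simp [norm_smul]
          ring
        have hL : 0 < ‖L‖ := norm_pos_iff.2 hne
        rw [Set.mem_ofPred_eq, hscale, le_inv_mul_iff₀ hL] at h
        linarith
  set S := {L : E →L[ℝ] E | L.det = 1 ∧ f L ≤ f 1} with hS
  have hcl : IsClosed S :=
    (isClosed_eq ContinuousLinearMap.continuous_det continuous_const).inter
      (isClosed_le hfc continuous_const)
  have hcpt : IsCompact S := (isCompact_closedBall (0 : E →L[ℝ] E) (f 1 / c)).of_isClosed_subset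
    hcl fun L hL => by
      rw [mem_closedBall_zero_iff, le_div_iff₀ hc]
      linarith [hlow L, hL.2]
  obtain ⟨L, hL, hmin⟩ := hcpt.exists_isMinOn ⟨1, hone, le_rfl⟩ hfc.continuousOn
  refine ⟨L, hL.1, fun M hM => ?_⟩
  rcases le_or_gt (f M) (f 1) with h | h
  · exact hmin (show M ∈ S from ⟨hM, h⟩)
  · exact hL.2.trans h.le

omit [FiniteDimensional ℝ E] in
/-- Second order upper bound for the norm. -/
theorem norm_add_le_first_order {w e : E} (hw : w ≠ 0) :
    ‖w + e‖ ≤ ‖w‖ + ⟪w, e⟫ / ‖w‖ + ‖e‖ ^ 2 / (2 * ‖w‖) := by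
  have h0 : 0 < ‖w‖ := norm_pos_iff.2 hw
  have h := norm_add_sq_real w e
  have h2 := sq_nonneg (‖w + e‖ - ‖w‖)
  have key : ‖w + e‖ * (2 * ‖w‖) ≤ 2 * ‖w‖ ^ 2 + 2 * ⟪w, e⟫ + ‖e‖ ^ 2 := by nlinarith
  rw [show ‖w‖ + ⟪w, e⟫ / ‖w‖ + ‖e‖ ^ 2 / (2 * ‖w‖) =
    (2 * ‖w‖ ^ 2 + 2 * ⟪w, e⟫ + ‖e‖ ^ 2) / (2 * ‖w‖) by field_simp, le_div_iff₀ (by linarith)]
  exact key

/-- A linear image in which the weighted family is isotropic. -/
theorem exists_isotropic {ι : Type*} (s : Finset ι) (A : ι → ℝ) (v : ι → E)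
    (hA : ∀ i ∈ s, 0 < A i) (hv : ∀ i ∈ s, v i ≠ 0)
    (hspan : Submodule.span ℝ (v '' (s : Set ι)) = ⊤) :
    ∃ L : E →L[ℝ] E, (∀ i ∈ s, L (v i) ≠ 0) ∧ ∀ x : E,
      (finrank ℝ E : ℝ) * ∑ i ∈ s, A i / ‖L (v i)‖ * ⟪L (v i), x⟫ ^ 2 =
        (∑ i ∈ s, A i * ‖L (v i)‖) * ‖x‖ ^ 2 := by
  obtain ⟨L, hL, hmin⟩ := exists_min_det_one s A v hA hspan
  have hinj : ∀ i ∈ s, L (v i) ≠ 0 := by
    intro i hi h
    have hu : IsUnit (L : E →ₗ[ℝ] E).det := by
      rw [show (L : E →ₗ[ℝ] E).det = 1 from hL]; exact isUnit_one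
    exact hv i hi ((LinearMap.equivOfIsUnitDet hu).injective (by simpa using h))
  refine ⟨L, hinj, ?_⟩
  set B : E → E → ℝ := fun x y => ∑ i ∈ s, A i / ‖L (v i)‖ * (⟪L (v i), x⟫ * ⟪L (v i), y⟫) with hB
  have hperp : ∀ x y : E, ⟪x, y⟫ = 0 → B x y = 0 := by
    intro x y hxy
    set C := ∑ i ∈ s, A i * (⟪L (v i), y⟫ ^ 2 * ‖x‖ ^ 2 / (2 * ‖L (v i)‖)) with hC
    have key : ∀ t : ℝ, 0 ≤ t * B x y + t ^ 2 * C := by
      intro t
      set T : E →L[ℝ] E :=
        LinearMap.toContinuousLinearMap (LinearMap.transvection (innerₛₗ ℝ y) (t • x))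
      have hT : T.det = 1 := by
        show LinearMap.det (LinearMap.transvection (innerₛₗ ℝ y) (t • x)) = 1
        rw [LinearMap.transvection.det, innerₛₗ_apply_apply, inner_smul_right, real_inner_comm,
          hxy, mul_zero, add_zero]
      have hTL : (T.comp L).det = 1 := by
        show LinearMap.det ((T : E →ₗ[ℝ] E) ∘ₗ (L : E →ₗ[ℝ] E)) = 1
        rw [LinearMap.det_comp, show LinearMap.det (L : E →ₗ[ℝ] E) = 1 from hL,
          show LinearMap.det (T : E →ₗ[ℝ] E) = 1 from hT, mul_one]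
      have h := hmin _ hTL
      have hle : ∑ i ∈ s, A i * ‖(T.comp L) (v i)‖ ≤
          (∑ i ∈ s, A i * ‖L (v i)‖) + t * B x y + t ^ 2 * C := by
        simp only [hB, hC, mul_sum, ← sum_add_distrib]
        refine sum_le_sum fun i hi => ?_
        have e1 : (T.comp L) (v i) = L (v i) + (t * ⟪L (v i), y⟫) • x := by
          simp [T, LinearMap.transvection.apply, real_inner_comm y, smul_smul, mul_comm]
        rw [e1]
        have := mul_le_mul_of_nonneg_left
          (norm_add_le_first_order (e := (t * ⟪L (v i), y⟫) • x) (hinj i hi)) (hA i hi).le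
        refine this.trans (le_of_eq ?_)
        rw [real_inner_smul_right, norm_smul, mul_pow, Real.norm_eq_abs, sq_abs]
        ring
      linarith
    by_contra hne
    rcases lt_or_gt_of_ne hne with hneg | hpos
    · have := key (-(B x y) / (2 * (|C| + 1)))
      have h0 : 0 < 2 * (|C| + 1) := by positivity
      rw [div_mul_eq_mul_div, div_pow, div_mul_eq_mul_div, div_add_div _ _ h0.ne' (by positivity),
        le_div_iff₀ (by positivity)] at this
      nlinarith [le_abs_self C, mul_pos h0 (mul_pos (neg_pos.2 hneg) (neg_pos.2 hneg))]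
    · have := key (-(B x y) / (2 * (|C| + 1)))
      have h0 : 0 < 2 * (|C| + 1) := by positivity
      rw [div_mul_eq_mul_div, div_pow, div_mul_eq_mul_div, div_add_div _ _ h0.ne' (by positivity),
        le_div_iff₀ (by positivity)] at this
      nlinarith [le_abs_self C, mul_pos h0 (mul_pos hpos hpos)]
  have hdiag : ∀ x y : E, ‖x‖ = ‖y‖ → B x x = B y y := by
    intro x y hxy
    have h := hperp (x + y) (x - y) ((real_inner_add_sub_eq_zero_iff x y).2 hxy)
    have e : B (x + y) (x - y) = B x x - B y y := by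
      simp only [hB, ← sum_sub_distrib]
      exact sum_congr rfl fun i _ => by rw [inner_add_right, inner_sub_right]; ring
    linarith
  intro x
  set b := stdOrthonormalBasis ℝ E
  have hk : ∀ k, B x x = ‖x‖ ^ 2 * B (b k) (b k) := by
    intro k
    rw [hdiag x (‖x‖ • b k) (by simp [norm_smul]), hB]
    simp only [mul_sum, real_inner_smul_right]
    exact sum_congr rfl fun i _ => by ring
  have hsum : ∑ k, B (b k) (b k) = ∑ i ∈ s, A i * ‖L (v i)‖ := by
    simp only [hB]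
    rw [sum_comm]
    refine sum_congr rfl fun i hi => ?_
    rw [← mul_sum]
    have : ∑ k, ⟪L (v i), b k⟫ * ⟪L (v i), b k⟫ = ‖L (v i)‖ ^ 2 := by
      rw [← b.sum_sq_norm_inner_left (L (v i))]
      exact sum_congr rfl fun k _ => by rw [Real.norm_eq_abs, sq_abs, real_inner_comm]; ring
    rw [this]
    have := (norm_pos_iff.2 (hinj i hi)).ne'
    field_simp
  calc (finrank ℝ E : ℝ) * ∑ i ∈ s, A i / ‖L (v i)‖ * ⟪L (v i), x⟫ ^ 2
      = ∑ _k : Fin (finrank ℝ E), B x x := by simp [hB, sq]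
    _ = ∑ k, ‖x‖ ^ 2 * B (b k) (b k) := sum_congr rfl fun k _ => hk k
    _ = _ := by rw [← mul_sum, hsum, mul_comm]

/-- A normalised shadow ratio, pulled back along a linear map. -/
theorem pull_back {ι : Type*} (s : Finset ι) (A : ι → ℝ) (v : ι → E)
    (L : E →L[ℝ] E) (hL : ∀ i ∈ s, L (v i) ≠ 0) {i : ι} (hi : i ∈ s) :
    A i * ‖L (v i)‖ / ((∑ j ∈ s, A j * ‖L (v j)‖ *
        |⟪‖L (v i)‖⁻¹ • L (v i), ‖L (v j)‖⁻¹ • L (v j)⟫|) / 2) =
      A i * ⟪v i, ContinuousLinearMap.adjoint L (L (v i))⟫ /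
        ((∑ j ∈ s, A j * |⟪v j, ContinuousLinearMap.adjoint L (L (v i))⟫|) / 2) := by
  have hn := norm_ne_zero_iff.2 (hL i hi)
  simp only [ContinuousLinearMap.adjoint_inner_right, real_inner_self_eq_norm_sq]
  have : ∑ j ∈ s, A j * ‖L (v j)‖ * |⟪‖L (v i)‖⁻¹ • L (v i), ‖L (v j)‖⁻¹ • L (v j)⟫| =
      (∑ j ∈ s, A j * |⟪L (v j), L (v i)⟫|) / ‖L (v i)‖ := by
    rw [sum_div]
    refine sum_congr rfl fun j hj => ?_
    have := norm_ne_zero_iff.2 (hL j hj)
    simp only [real_inner_smul_left, real_inner_smul_right, abs_mul, abs_inv, abs_norm]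
    rw [real_inner_comm (L (v j)) (L (v i))]
    field_simp
  rw [this]
  field_simp

omit [FiniteDimensional ℝ E] in
/-- Cauchy–Schwarz against the shadows of an isotropic family, any dimension. -/
theorem sum_div_shadow_ge_sqrt {ι : Type*} (s : Finset ι)
    (hs : s.Nonempty) (A : ι → ℝ) (u : ι → E) (hA : ∀ i ∈ s, 0 < A i) (h1 : ∀ i ∈ s, ‖u i‖ = 1)
    (hiso : ∀ x : E, (finrank ℝ E : ℝ) * ∑ i ∈ s, A i * ⟪u i, x⟫ ^ 2 = (∑ i ∈ s, A i) * ‖x‖ ^ 2) :
    2 * √(finrank ℝ E : ℝ) ≤ ∑ i ∈ s, A i / ((∑ j ∈ s, A j * |⟪u i, u j⟫|) / 2) := by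
  set n : ℝ := (finrank ℝ E : ℝ) with hn
  set S := ∑ i ∈ s, A i with hS
  set D := ∑ i ∈ s, ∑ j ∈ s, A i * A j * |⟪u i, u j⟫| with hD
  set P : ι → ℝ := fun i => (∑ j ∈ s, A j * |⟪u i, u j⟫|) / 2 with hP
  have hS0 : 0 < S := sum_pos hA hs
  have hP0 : ∀ i ∈ s, 0 < P i := by
    intro i hi
    have h := single_le_sum (f := fun j => A j * |⟪u i, u j⟫|)
      (fun j hj => mul_nonneg (hA j hj).le (abs_nonneg _)) hi
    simp only [real_inner_self_eq_norm_sq, h1 i hi, one_pow, abs_one, mul_one] at h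
    have := hA i hi
    simp only [hP]
    linarith
  have hn0 : 0 ≤ n := Nat.cast_nonneg _
  have hT : ∑ i ∈ s, A i * P i = D / 2 := by
    rw [hD, sum_div]
    refine sum_congr rfl fun i _ => ?_
    simp only [hP]
    rw [mul_div_assoc', mul_sum]
    congr 1
    exact sum_congr rfl fun j _ => by ring
  have hD0 : 0 < D := by
    have : 0 < ∑ i ∈ s, A i * P i := sum_pos (fun i hi => mul_pos (hA i hi) (hP0 i hi)) hs
    linarith
  have hD2 : D ^ 2 * n ≤ S ^ 4 := by
    have e : D = ∑ p ∈ s ×ˢ s, A p.1 * A p.2 * |⟪u p.1, u p.2⟫| := by rw [hD, sum_product]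
    have hcs := sum_sq_le_sum_mul_sum_of_sq_le_mul (s ×ˢ s)
      (r := fun p => A p.1 * A p.2 * |⟪u p.1, u p.2⟫|)
      (f := fun p => A p.1 * A p.2) (g := fun p => A p.1 * A p.2 * ⟪u p.1, u p.2⟫ ^ 2)
      (fun p hp => by
        obtain ⟨a, b⟩ := mem_product.1 hp
        exact mul_nonneg (hA _ a).le (hA _ b).le)
      (fun p hp => by
        obtain ⟨a, b⟩ := mem_product.1 hp
        exact mul_nonneg (mul_nonneg (hA _ a).le (hA _ b).le) (sq_nonneg _))
      (fun p _ => le_of_eq (by rw [mul_pow, sq_abs]; ring))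
    rw [← e, sum_product, sum_product] at hcs
    have hf : ∑ i ∈ s, ∑ j ∈ s, A i * A j = S ^ 2 := by rw [sq, hS, sum_mul_sum]
    have hg : n * ∑ i ∈ s, ∑ j ∈ s, A i * A j * ⟪u i, u j⟫ ^ 2 = S ^ 2 := by
      rw [mul_sum]
      calc ∑ i ∈ s, n * ∑ j ∈ s, A i * A j * ⟪u i, u j⟫ ^ 2
          = ∑ i ∈ s, A i * (n * ∑ j ∈ s, A j * ⟪u j, u i⟫ ^ 2) := by
            refine sum_congr rfl fun i _ => ?_
            simp only [mul_sum]
            exact sum_congr rfl fun j _ => by rw [real_inner_comm (u j) (u i)]; ring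
        _ = ∑ i ∈ s, A i * S := sum_congr rfl fun i hi => by
            rw [hiso (u i), h1 i hi, one_pow, mul_one]
        _ = S ^ 2 := by rw [← sum_mul, sq]
    calc D ^ 2 * n ≤ (∑ i ∈ s, ∑ j ∈ s, A i * A j) *
          (∑ i ∈ s, ∑ j ∈ s, A i * A j * ⟪u i, u j⟫ ^ 2) * n :=
          mul_le_mul_of_nonneg_right hcs hn0
      _ = S ^ 4 := by rw [hf, mul_assoc, mul_comm _ n, hg]; ring
  have hDn : √n * D ≤ S ^ 2 := by
    refine abs_le_of_sq_le_sq' ?_ (sq_nonneg S) |>.2
    rw [mul_pow, Real.sq_sqrt hn0]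
    nlinarith
  have hcs := sq_sum_div_le_sum_sq_div s A (g := fun i => A i * P i)
    (fun i hi => mul_pos (hA i hi) (hP0 i hi))
  have he : ∑ i ∈ s, A i ^ 2 / (A i * P i) = ∑ i ∈ s, A i / P i :=
    sum_congr rfl fun i hi => by
      have := (hA i hi).ne'
      have := (hP0 i hi).ne'
      field_simp
  rw [he, hT] at hcs
  show 2 * √n ≤ ∑ i ∈ s, A i / P i
  refine le_trans ?_ hcs
  rw [le_div_iff₀ (by linarith)]
  linarith

/-- One direction per normal, any dimension, with total ratio at least `2√n`. -/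
theorem exists_directions_sqrt [Nontrivial E] {ι : Type*} (s : Finset ι) (A : ι → ℝ) (v : ι → E)
    (hA : ∀ i ∈ s, 0 < A i) (hv : ∀ i ∈ s, v i ≠ 0)
    (hspan : Submodule.span ℝ (v '' (s : Set ι)) = ⊤) :
    ∃ d : ι → E, (∀ i ∈ s, 0 < ⟪v i, d i⟫) ∧
      2 * √(finrank ℝ E : ℝ) ≤
        ∑ i ∈ s, A i * ⟪v i, d i⟫ / ((∑ j ∈ s, A j * |⟪v j, d i⟫|) / 2) := by
  obtain ⟨L, hL, hiso⟩ := exists_isotropic s A v hA hv hspan
  refine ⟨fun i => ContinuousLinearMap.adjoint L (L (v i)), fun i hi => ?_, ?_⟩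
  · rw [ContinuousLinearMap.adjoint_inner_right, real_inner_self_eq_norm_sq]
    exact pow_pos (norm_pos_iff.2 (hL i hi)) 2
  have hs : s.Nonempty := by
    rw [nonempty_iff_ne_empty]
    rintro rfl
    simp at hspan
  have h := sum_div_shadow_ge_sqrt s hs (fun i => A i * ‖L (v i)‖)
    (fun i => ‖L (v i)‖⁻¹ • L (v i))
    (fun i hi => mul_pos (hA i hi) (norm_pos_iff.2 (hL i hi)))
    (fun i hi => by simp [norm_smul, norm_ne_zero_iff.2 (hL i hi)])
    (fun x => by
      rw [← hiso x]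
      congr 1
      refine sum_congr rfl fun i hi => ?_
      have := norm_ne_zero_iff.2 (hL i hi)
      simp only [real_inner_smul_left]
      field_simp)
  exact h.trans (le_of_eq (sum_congr rfl fun i hi => pull_back s A v L hL hi))

/-- One direction per normal, with large total ratio against the oblique shadows. -/
theorem exists_directions {ι : Type*} (s : Finset ι) (A : ι → ℝ)
    (v : ι → EuclideanSpace ℝ (Fin 3)) (hA : ∀ i ∈ s, 0 < A i) (hv : ∀ i ∈ s, v i ≠ 0)
    (hspan : Submodule.span ℝ (v '' (s : Set ι)) = ⊤) :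
    ∃ d : ι → EuclideanSpace ℝ (Fin 3), (∀ i ∈ s, 0 < ⟪v i, d i⟫) ∧
      3 * (√5 - 1) ≤
        ∑ i ∈ s, A i * ⟪v i, d i⟫ / ((∑ j ∈ s, A j * |⟪v j, d i⟫|) / 2) := by
  obtain ⟨L, hL, hiso⟩ := exists_isotropic s A v hA hv hspan
  refine ⟨fun i => ContinuousLinearMap.adjoint L (L (v i)), fun i hi => ?_, ?_⟩
  · rw [ContinuousLinearMap.adjoint_inner_right, real_inner_self_eq_norm_sq]
    exact pow_pos (norm_pos_iff.2 (hL i hi)) 2
  have hs : s.Nonempty := by
    rw [nonempty_iff_ne_empty]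
    rintro rfl
    simp at hspan
  have h := sum_div_shadow_ge s hs (fun i => A i * ‖L (v i)‖)
    (fun i => ‖L (v i)‖⁻¹ • L (v i))
    (fun i hi => mul_pos (hA i hi) (norm_pos_iff.2 (hL i hi)))
    (fun i hi => by simp [norm_smul, norm_ne_zero_iff.2 (hL i hi)])
    (fun x => by
      have hx := hiso x
      rw [finrank_euclideanSpace_fin, Nat.cast_ofNat] at hx
      rw [div_mul_eq_mul_div, eq_div_iff (by norm_num : (3 : ℝ) ≠ 0), ← hx, mul_comm (3 : ℝ)]
      congr 1
      refine sum_congr rfl fun i hi => ?_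
      have := norm_ne_zero_iff.2 (hL i hi)
      simp only [real_inner_smul_left]
      field_simp)
  exact h.trans (le_of_eq (sum_congr rfl fun i hi => pull_back s A v L hL hi))

end Vale.Agent.P237.General
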