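import Vale.Agent.P237.General.Seg

/-!
Orthonormal charts of three-space, slices and projections.
-/

namespace Vale.Agent.P237.General

open MeasureTheory Set
open scoped RealInnerProductSpace ENNReal Pointwise

/-- Orthonormal bases of three-space. -/
abbrev Frame := OrthonormalBasis (Fin 3) ℝ E3

theorem exists_frame {u : E3} (hu : ‖u‖ = 1) : ∃ e : Frame, e 2 = u := by
  have h : Orthonormal ℝ (({2} : Set (Fin 3)).domRestrict fun _ => u) :=
    ⟨fun _ => hu, fun i j hij => absurd (Subtype.ext (i.2.trans j.2.symm)) hij⟩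
  obtain ⟨b, hb⟩ := h.exists_orthonormalBasis_extension_of_card_eq (by simp)
  exact ⟨b, hb 2 rfl⟩

/-- Coordinates with respect to two vectors, as a linear map. -/
noncomputable def coordsL {V : Type*} [NormedAddCommGroup V] [InnerProductSpace ℝ V] (a b : V) :
    V →ₗ[ℝ] E2 where
  toFun := coords a b
  map_add' x y := by ext i; fin_cases i <;> simp [coords, inner_add_right]
  map_smul' c x := by ext i; fin_cases i <;> simp [coords, real_inner_smul_right]

@[simp] theorem coords_zero {V : Type*} [NormedAddCommGroup V] [InnerProductSpace ℝ V] (a b x : V) :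
    coords a b x 0 = ⟪a, x⟫ := by simp [coords]

@[simp] theorem coords_one {V : Type*} [NormedAddCommGroup V] [InnerProductSpace ℝ V] (a b x : V) :
    coords a b x 1 = ⟪b, x⟫ := by simp [coords]

@[simp] theorem coordsL_apply {V : Type*} [NormedAddCommGroup V] [InnerProductSpace ℝ V]
    (a b x : V) : coordsL a b x = coords a b x := rfl

/-- The chart of a frame. -/
noncomputable def chart (e : Frame) : E3 →ₗ[ℝ] E2 × ℝ :=
  (coordsL (e 0) (e 1)).prod (innerₛₗ ℝ (e 2))

/-- The inverse chart. -/
noncomputable def mk (e : Frame) (p : E2 × ℝ) : E3 := p.1 0 • e 0 + p.1 1 • e 1 + p.2 • e 2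

theorem chart_apply (e : Frame) (x : E3) : chart e x = (coords (e 0) (e 1) x, ⟪e 2, x⟫) := rfl

theorem mk_chart (e : Frame) (x : E3) : mk e (chart e x) = x := by
  have h := e.sum_repr' x
  rw [Fin.sum_univ_three] at h
  simpa [mk, chart_apply] using h

theorem inner_mk (e : Frame) (p : E2 × ℝ) (x : E3) :
    ⟪x, mk e p⟫ = p.1 0 * ⟪e 0, x⟫ + p.1 1 * ⟪e 1, x⟫ + p.2 * ⟪e 2, x⟫ := by
  simp [mk, inner_add_right, real_inner_smul_right, real_inner_comm x]

theorem chart_mk (e : Frame) (p : E2 × ℝ) : chart e (mk e p) = p := by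
  have h := fun i j => e.inner_eq_ite i j
  refine Prod.ext ?_ ?_
  · ext i
    fin_cases i <;> simp [chart_apply, inner_mk, h]
  · simp [chart_apply, inner_mk, h]

theorem continuous_chart (e : Frame) : Continuous (chart e) :=
  (chart e).continuous_of_finiteDimensional

theorem continuous_mk (e : Frame) : Continuous (mk e) := by unfold mk; fun_prop

theorem mp_chart (e : Frame) : MeasurePreserving (chart e) := by
  have h2 := volume_preserving_piFinSuccAbove (fun _ : Fin 3 => ℝ) 2
  have h3 := PiLp.volume_preserving_toLp (Fin 2)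
  have h4 : MeasurePreserving (fun p : ℝ × (Fin 2 → ℝ) => (WithLp.toLp 2 p.2, p.1)) := by
    exact (Measure.measurePreserving_swap).comp ((MeasurePreserving.id volume).prod h3)
  have h := ((h4.comp h2).comp (PiLp.volume_preserving_ofLp (Fin 3))).comp
    e.measurePreserving_repr
  have e' : (chart e : E3 → E2 × ℝ) = ((fun p : ℝ × (Fin 2 → ℝ) => (WithLp.toLp 2 p.2, p.1)) ∘
      (MeasurableEquiv.piFinSuccAbove (fun _ : Fin 3 => ℝ) 2) ∘ (WithLp.ofLp : E3 → Fin 3 → ℝ)) ∘
      e.repr := by
    funext x
    refine Prod.ext ?_ ?_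
    · ext i
      fin_cases i <;>
        simp [chart_apply, MeasurableEquiv.piFinSuccAbove_apply, Fin.insertNthEquiv,
          OrthonormalBasis.repr_apply_apply, Fin.removeNth] <;> rfl
    · simp [chart_apply, MeasurableEquiv.piFinSuccAbove_apply, Fin.insertNthEquiv,
        OrthonormalBasis.repr_apply_apply]
  rw [e']
  exact h

theorem volume_chart (e : Frame) {K : Set E3} (hK : IsCompact K) :
    volume (chart e '' K) = volume K := by
  rw [← (mp_chart e).measure_preimage (hK.image (continuous_chart e)).measurableSet.nullMeasurableSet,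
    Function.Injective.preimage_image (Function.LeftInverse.injective (mk_chart e))]

/-- The slice at a height. -/
def slice (e : Frame) (K : Set E3) (z : ℝ) : Set E2 := {y | mk e (y, z) ∈ K}

theorem isCompact_slice (e : Frame) {K : Set E3} (hK : IsCompact K) (z : ℝ) :
    IsCompact (slice e K z) := by
  refine (hK.image (continuous_coords (e 0) (e 1))).of_isClosed_subset
    (hK.isClosed.preimage ((continuous_mk e).comp (by fun_prop))) fun y hy => ⟨_, hy, ?_⟩
  exact congrArg Prod.fst (chart_mk e (y, z))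

theorem convex_slice (e : Frame) {K : Set E3} (hK : Convex ℝ K) (z : ℝ) :
    Convex ℝ (slice e K z) := by
  intro y hy y' hy' a b ha hb hab
  have h := hK hy hy' ha hb hab
  simp only [slice, mem_ofPred_eq]
  convert h using 1
  simp only [mk, PiLp.add_apply, PiLp.smul_apply, smul_eq_mul]
  linear_combination (norm := module) hab.symm • (z • e 2)

theorem preimage_slice (e : Frame) (K : Set E3) (z : ℝ) :
    (fun y => (y, z)) ⁻¹' (chart e '' K) = slice e K z := by
  ext y
  refine ⟨fun ⟨x, hx, h⟩ => ?_, fun h => ⟨_, h, chart_mk e _⟩⟩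
  have h' : mk e (y, z) = x := by
    simp only at h
    rw [← h, mk_chart]
  simpa [slice, h'] using hx

theorem volume_eq_lintegral (e : Frame) {K : Set E3} (hK : IsCompact K) :
    volume K = ∫⁻ z, volume (slice e K z) := by
  rw [← volume_chart e hK, Measure.volume_eq_prod,
    Measure.prod_apply_symm (hK.image (continuous_chart e)).measurableSet]
  simp_rw [preimage_slice]

theorem area_eq_coords {K : Set E3} (hK : IsCompact K) {u a b : E3} (hu : ‖u‖ = 1) (ha : ‖a‖ = 1)
    (hb : ‖b‖ = 1) (hua : ⟪u, a⟫ = 0) (hub : ⟪u, b⟫ = 0) (hab : ⟪a, b⟫ = 0) :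
    area K u = volume.real (coords a b '' K) := by
  have hu0 : u ≠ 0 := norm_ne_zero_iff.1 (by simp [hu])
  have hm₁ : a ∈ (ℝ ∙ u)ᗮ := Submodule.mem_orthogonal_singleton_iff_inner_right.2 hua
  have hm₂ : b ∈ (ℝ ∙ u)ᗮ := Submodule.mem_orthogonal_singleton_iff_inner_right.2 hub
  have : Fact (Module.finrank ℝ E3 = 2 + 1) := ⟨by simp⟩
  obtain ⟨hmp, hinj⟩ := frame (V := (ℝ ∙ u)ᗮ) (Submodule.finrank_orthogonal_span_singleton hu0)
    (a := ⟨a, hm₁⟩) (b := ⟨b, hm₂⟩) ha hb hab
  have hT : IsCompact ((ℝ ∙ u)ᗮ.orthogonalProjectionOnto '' K) :=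
    hK.image (ContinuousLinearMap.continuous _)
  have he : coords (⟨a, hm₁⟩ : (ℝ ∙ u)ᗮ) ⟨b, hm₂⟩ ''
      ((ℝ ∙ u)ᗮ.orthogonalProjectionOnto '' K) = coords a b '' K := by
    rw [image_image]
    refine image_congr fun x _ => ?_
    simp only [coords]
    rw [Submodule.inner_orthogonalProjectionOnto_eq_of_mem_left,
      Submodule.inner_orthogonalProjectionOnto_eq_of_mem_left]
  rw [area, ← he, measureReal_def, measureReal_def,
    ← hmp.measure_preimage (hT.image (continuous_coords _ _)).measurableSet.nullMeasurableSet,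
    hinj.preimage_image]

theorem area_frame (e : Frame) {K : Set E3} (hK : IsCompact K) :
    area K (e 2) = volume.real (coords (e 0) (e 1) '' K) :=
  area_eq_coords hK (e.norm_eq_one 2) (e.norm_eq_one 0) (e.norm_eq_one 1)
    (e.inner_eq_zero (by decide)) (e.inner_eq_zero (by decide)) (e.inner_eq_zero (by decide))

theorem area_neg {K : Set E3} (hK : IsCompact K) {u : E3} (hu : ‖u‖ = 1) :
    area K (-u) = area K u := by
  obtain ⟨e, rfl⟩ := exists_frame hu
  rw [area_frame e hK, area_eq_coords hK (u := -e 2) (by simpa using hu) (e.norm_eq_one 0)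
    (e.norm_eq_one 1) (by simp [e.inner_eq_zero]) (by simp [e.inner_eq_zero])
    (e.inner_eq_zero (by decide))]

/-- Volume after adding a segment. -/
theorem volume_add_segment {K : Set E3} (hK : IsCompact K) (hKc : Convex ℝ K) {u : E3}
    (hu : ‖u‖ = 1) {τ : ℝ} (hτ : 0 ≤ τ) :
    volume.real (K + segment ℝ 0 (τ • u)) = volume.real K + τ * area K u := by
  obtain ⟨e, rfl⟩ := exists_frame hu
  have h1 : chart e '' (K + segment ℝ 0 (τ • e 2))
      = chart e '' K + segment ℝ 0 ((0 : E2), τ) := by
    rw [Set.image_add, ← LinearMap.coe_toAffineMap, image_segment]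
    congr
    · simp
    · refine Prod.ext ?_ ?_
      · ext i
        fin_cases i <;> simp [chart_apply, e.inner_eq_zero]
      · simp [chart_apply]
  have h2 : Prod.fst '' (chart e '' K) = coords (e 0) (e 1) '' K := by
    rw [image_image]; rfl
  rw [measureReal_def, ← volume_chart e (hK.add (isCompact_segment _)), h1, ← measureReal_def,
    prod_add_segment (hK.image (continuous_chart e)) (hKc.linear_image _) hτ, h2, area_frame e hK,
    measureReal_def, volume_chart e hK]
  rfl

/-- Area after adding a planar segment. -/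
theorem planar_add_segment {C : Set E2} (hC : IsCompact C) (hCc : Convex ℝ C) (w : E2) :
    volume.real (C + segment ℝ 0 w) = volume.real C + wid C !₂[-w 1, w 0] := by
  rcases eq_or_ne w 0 with rfl | hw
  · have h0 : wid C !₂[-(0 : E2) 1, (0 : E2) 0] = 0 := by
      have : (!₂[-(0 : E2) 1, (0 : E2) 0] : E2) = (0 : ℝ) • 0 := by
        ext i; fin_cases i <;> simp
      rw [this, wid_smul]; simp
    simp at h0
    simp [h0]
  set τ := ‖w‖
  have hτ : 0 < τ := norm_pos_iff.2 hw
  set p : E2 := τ⁻¹ • w
  have hp : ‖p‖ = 1 := by simp [p, norm_smul, hτ.ne', τ]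
  set q : E2 := !₂[-p 1, p 0]
  have hp2 : p 0 ^ 2 + p 1 ^ 2 = 1 := by
    have := EuclideanSpace.real_norm_sq_eq p
    simpa [hp, Fin.sum_univ_two] using this.symm
  have hq : ‖q‖ = 1 := by
    rw [EuclideanSpace.norm_eq, Real.sqrt_eq_one]
    simp [q, Fin.sum_univ_two]; linarith
  have hqp : ⟪q, p⟫ = 0 := by simp [q, PiLp.inner_apply, Fin.sum_univ_two]; ring
  obtain ⟨hf, hfi⟩ := frame (V := E2) (by simp) hq hp hqp
  set g : E2 →ₗ[ℝ] ℝ × ℝ := (innerₛₗ ℝ q).prod (innerₛₗ ℝ p) with hg
  have hgmp : MeasurePreserving g := by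
    have := measurePreserving_pair.comp hf
    convert this using 1
    funext v
    simp [g, coords, LinearMap.prod_apply]
  have hgi : Function.Injective g := fun v v' h => hfi (by
    have h1 := congrArg Prod.fst h
    have h2 := congrArg Prod.snd h
    simp [g, LinearMap.prod_apply] at h1 h2
    ext i; fin_cases i <;> simp [coords, h1, h2])
  have hgc : Continuous g := g.continuous_of_finiteDimensional
  have hv : ∀ S : Set E2, IsCompact S → volume (g '' S) = volume S := fun S hS => by
    rw [← hgmp.measure_preimage (hS.image hgc).measurableSet.nullMeasurableSet, hgi.preimage_image]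
  have h1 : g '' (C + segment ℝ 0 w) = g '' C + segment ℝ 0 ((0 : ℝ), τ) := by
    have hw' : w = τ • p := by simp [p, hτ.ne']
    rw [Set.image_add, ← LinearMap.coe_toAffineMap, image_segment]
    congr
    · simp
    · rw [hw']
      simp [g, LinearMap.prod_apply, hqp, hp]
  have h2 : Prod.fst '' (g '' C) = (fun y => ⟪q, y⟫) '' C := by
    rw [image_image]
    simp [g, LinearMap.prod_apply]
  rw [measureReal_def, ← hv _ (hC.add (isCompact_segment _)), h1, ← measureReal_def,
    prod_add_segment (hC.image hgc) (hCc.linear_image _) hτ.le, h2, measureReal_def,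
    hv _ hC, ← measureReal_def]
  congr 1
  rw [show (!₂[-w 1, w 0] : E2) = τ • q by
    ext i; fin_cases i <;> simp [q, p, hτ.ne'], wid_smul, abs_of_pos hτ]
  rfl

end Vale.Agent.P237.General
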