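import Vale.Agent.P237.General.Sections
import Vale.Agent.P237.General.Position

/-!
The lower bound for the projection volume of every convex body in three-space.
-/

namespace Vale.Agent.P237.General

open MeasureTheory Set
open scoped RealInnerProductSpace ENNReal Pointwise

variable {ι : Type*}

theorem inner_zs_le (w : ι → E3) (s : Finset ι) (u : E3) :
    ∀ x ∈ zs w s, ⟪x, u⟫ ≤ ∑ i ∈ s, max ⟪w i, u⟫ 0 := by
  classical
  induction s using Finset.induction_on with
  | empty =>
    intro x hx
    simp [zs, ← Set.singleton_zero] at hx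
    simp [hx]
  | insert a s ha ih =>
    intro x hx
    rw [zs_insert w ha, segment_zero_eq] at hx
    obtain ⟨_, ⟨c, hc, rfl⟩, y, hy, rfl⟩ := hx
    rw [inner_add_left, real_inner_smul_left, Finset.sum_insert ha]
    refine add_le_add ?_ (ih y hy)
    nlinarith [le_max_left ⟪w a, u⟫ 0, le_max_right ⟪w a, u⟫ 0, hc.1, hc.2]

theorem poly_bound [Fintype ι] {n : ι → E3} {h : ι → ℝ} (hp : IsPoly n h) :
    (1 + 5 * √5 / 2) * volume.real (poly n h) ^ 2 ≤ volume.real (projBody (poly n h)) := by
  set A := facet n h with hA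
  have hA0 : ∀ i, 0 ≤ A i := facet_nonneg n h
  -- the centred zonotope lies in the projection body
  set c : E3 := -((1 / 2 : ℝ) • ∑ i, A i • n i)
  have hsub : (fun x => c + x) '' zon n h ⊆ projBody (poly n h) := by
    rintro _ ⟨x, hx, rfl⟩ u hu
    rw [area_eq_half hp hu, inner_add_left]
    have h1 := inner_zs_le _ _ u x hx
    have h2 : ⟪c, u⟫ = -((∑ i, A i * ⟪n i, u⟫) / 2) := by
      simp [c, sum_inner, real_inner_smul_left]
      ring
    have h3 : ∑ i, A i * |⟪n i, u⟫| + ∑ i, A i * ⟪n i, u⟫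
        = 2 * ∑ i, max ⟪A i • n i, u⟫ 0 := by
      rw [← Finset.sum_add_distrib, Finset.mul_sum]
      refine Finset.sum_congr rfl fun i _ => ?_
      rw [real_inner_smul_left]
      rcases le_total 0 ⟪n i, u⟫ with hs | hs
      · rw [abs_of_nonneg hs, max_eq_left (mul_nonneg (hA0 i) hs)]; ring
      · rw [abs_of_nonpos hs, max_eq_right (mul_nonpos_of_nonneg_of_nonpos (hA0 i) hs)]; ring
    linarith
  have hZ : volume.real (zon n h) ≤ volume.real (projBody (poly n h)) := by
    have hm := measureReal_mono (μ := (volume : Measure E3)) hsub (projBody_finite _).ne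
    rwa [measureReal_def, image_add_left, measure_preimage_add, ← measureReal_def] at hm
  refine le_trans ?_ hZ
  -- the facet estimates
  set e : ι → Frame := fun i => fr (n i)
  have he : ∀ i, e i 2 = n i := fun i => fr_two (hp.unit i)
  set M : ι → ℝ := fun i => secMax (e i) (poly n h)
  set V := volume.real (poly n h)
  have hV : 0 < V := volume_poly_pos hp
  have hM : ∀ i, 0 < M i := fun i => secMax_pos (e i) hp.compact hV
  have hb : ∀ i, M i * (wid (poly n h) (n i) + 3 * V / M i) ^ 2 ≤ 4 * area (zon n h) (n i) :=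
    fun i => by simpa [he] using facet_bound hp (e i)
  classical
  set s : Finset ι := Finset.univ.filter fun i => 0 < A i with hs_def
  have hmem : ∀ i, i ∈ s ↔ 0 < A i := fun i => by simp [s]
  have hrest : ∀ (f : ι → ℝ), ∑ i ∈ s, A i * f i = ∑ i, A i * f i := fun f =>
    Finset.sum_subset (Finset.subset_univ _) fun i _ hi => by
      rw [le_antisymm (not_lt.1 fun hpos => hi ((hmem i).2 hpos)) (hA0 i), zero_mul]
  have hspan : Submodule.span ℝ (n '' (s : Set ι)) = ⊤ := by
    rw [← Submodule.orthogonal_eq_bot_iff, eq_bot_iff]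
    intro u hu
    rw [Submodule.mem_bot]
    by_contra hne
    have := supp_pos hp hne
    rw [supp, ← hA, ← hrest] at this
    refine this.ne' ?_
    rw [Finset.sum_eq_zero fun i hi => ?_, zero_div]
    rw [Submodule.inner_right_of_mem_orthogonal
      (Submodule.subset_span (Set.mem_image_of_mem n (show i ∈ (s : Set ι) from hi))) hu, abs_zero, mul_zero]
  obtain ⟨d, hd, hY⟩ := exists_directions s A n (fun i hi => (hmem i).1 hi)
    (fun i _ => norm_ne_zero_iff.1 (by simp [hp.unit i])) hspan
  set T := ∑ i, A i / M i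
  have hT : 3 * (√5 - 1) ≤ T := by
    calc 3 * (√5 - 1) ≤ _ := hY
      _ ≤ ∑ i ∈ s, A i / M i := by
        refine Finset.sum_le_sum fun i hi => ?_
        have hs : 0 < supp n h (d i) :=
          supp_pos hp fun h0 => by simpa [h0] using hd i hi
        have h1 := secMax_mul_le hp (e i) (d i)
        rw [he, abs_of_pos (hd i hi)] at h1
        rw [hrest fun j => |⟪n j, d i⟫|]
        change A i * ⟪n i, d i⟫ / supp n h (d i) ≤ _
        rw [div_le_div_iff₀ hs (hM i)]
        calc A i * ⟪n i, d i⟫ * M i = A i * (⟪n i, d i⟫ * M i) := by ring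
          _ ≤ _ := mul_le_mul_of_nonneg_left h1 (hA0 i)
      _ ≤ T := Finset.sum_le_sum_of_subset_of_nonneg (Finset.subset_univ _)
        fun i _ _ => div_nonneg (hA0 i) (hM i).le
  set S := ∑ i, A i * (wid (poly n h) (n i) + 3 * V / M i)
  have hS : 6 * V + 3 * V * T ≤ S := by
    have hw := width_sum hp
    simp only [S, T, mul_add, Finset.sum_add_distrib, Finset.mul_sum]
    refine add_le_add hw (le_of_eq (Finset.sum_congr rfl fun i _ => by ring))
  have hcs : S ^ 2 ≤ (∑ i, A i * (M i * (wid (poly n h) (n i) + 3 * V / M i) ^ 2)) * T := by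
    refine Finset.sum_sq_le_sum_mul_sum_of_sq_le_mul Finset.univ
      (fun i _ => mul_nonneg (hA0 i) (mul_nonneg (hM i).le (sq_nonneg _)))
      (fun i _ => div_nonneg (hA0 i) (hM i).le) fun i _ => le_of_eq ?_
    have := (hM i).ne'
    field_simp
  have h12 : ∑ i, A i * (M i * (wid (poly n h) (n i) + 3 * V / M i) ^ 2)
      ≤ 12 * volume.real (zon n h) := by
    calc _ ≤ ∑ i, A i * (4 * area (zon n h) (n i)) :=
          Finset.sum_le_sum fun i _ => mul_le_mul_of_nonneg_left (hb i) (hA0 i)
      _ = 4 * ∑ i, A i * area (zon n h) (n i) := by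
          rw [Finset.mul_sum]; exact Finset.sum_congr rfl fun i _ => by ring
      _ ≤ 4 * (3 * volume.real (zon n h)) :=
          mul_le_mul_of_nonneg_left (zonotope_volume A n hA0 hp.unit Finset.univ) (by norm_num)
      _ = _ := by ring
  have h5 := Real.sq_sqrt (show (0 : ℝ) ≤ 5 by norm_num)
  have h52 : (2 : ℝ) ≤ √5 := (Real.le_sqrt' (by norm_num)).2 (by norm_num)
  have hT0 : 0 < T := lt_of_lt_of_le (by linarith) hT
  have h0 : (6 * V + 3 * V * T) ^ 2 ≤ 12 * volume.real (zon n h) * T :=
    (pow_le_pow_left₀ (by positivity) hS 2).trans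
      (hcs.trans (mul_le_mul_of_nonneg_right h12 hT0.le))
  have h1 : (12 * (1 + 5 * √5 / 2)) * T ≤ 9 * (2 + T) ^ 2 := by
    nlinarith [mul_nonneg (sub_nonneg.2 hT) (sub_nonneg.2 hT),
      mul_nonneg (sub_nonneg.2 hT) (sub_nonneg.2 h52)]
  refine le_of_mul_le_mul_left ?_ (mul_pos (show (0 : ℝ) < 12 by norm_num) hT0)
  nlinarith [mul_le_mul_of_nonneg_left h1 (sq_nonneg V), h0]

/-- An inner polytope containing a shrunken copy. -/
theorem exists_poly {K K' : Set E3} (hK : IsCompact K) (hK' : IsCompact K') (hKc : Convex ℝ K')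
    (hne : (interior K').Nonempty) (hsub : K' ⊆ interior K) :
    ∃ (s : Finset (E3 × ℝ)), IsPoly (fun q : s => q.1.1) (fun q : s => q.1.2) ∧
      K' ⊆ poly (fun q : s => q.1.1) (fun q : s => q.1.2) ∧
      poly (fun q : s => q.1.1) (fun q : s => q.1.2) ⊆ K := by
  classical
  obtain ⟨R, hR⟩ := hK.isBounded.subset_closedBall 0
  set C : Set E3 := {y | ∀ i, |y i| ≤ R}
  have hC : IsCompact C := by
    refine (isCompact_univ_pi fun _ : Fin 3 => isCompact_Icc (a := -R) (b := R)).image
      (PiLp.continuous_toLp 2 _) |>.of_isClosed_subset ?_ fun y hy =>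
        ⟨WithLp.ofLp y, fun i _ => abs_le.1 (hy i), rfl⟩
    simp only [C, ofPred_forall]
    exact isClosed_iInter fun i => isClosed_le (by fun_prop) continuous_const
  have hsep : ∀ y ∈ C \ interior K, ∃ q : E3 × ℝ, ‖q.1‖ = 1 ∧ (∀ a ∈ K', ⟪q.1, a⟫ ≤ q.2) ∧
      q.2 < ⟪q.1, y⟫ := by
    intro y hy
    obtain ⟨f, c, hf, hfy⟩ := geometric_hahn_banach_closed_point hKc hK'.isClosed
      (fun hy' => hy.2 (hsub hy'))
    set v := (InnerProductSpace.toDual ℝ E3).symm f
    have hv : ∀ a, ⟪v, a⟫ = f a := fun a => InnerProductSpace.toDual_symm_apply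
    have hv0 : v ≠ 0 := by
      intro h0
      obtain ⟨a, ha⟩ := hne.mono interior_subset
      have h1 := hf a ha
      rw [← hv, h0, inner_zero_left] at h1
      rw [← hv, h0, inner_zero_left] at hfy
      linarith
    refine ⟨(‖v‖⁻¹ • v, ‖v‖⁻¹ * c), norm_smul_inv_norm hv0, fun a ha => ?_, ?_⟩
    · rw [real_inner_smul_left, hv]
      exact mul_le_mul_of_nonneg_left (hf a ha).le (inv_nonneg.2 (norm_nonneg _))
    · rw [real_inner_smul_left, hv]
      exact mul_lt_mul_of_pos_left hfy (inv_pos.2 (norm_pos_iff.2 hv0))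
  choose! q hq1 hq2 hq3 using hsep
  obtain ⟨t, ht, hcov⟩ := (hC.diff isOpen_interior).elim_nhds_subcover
    (fun y => {x | (q y).2 < ⟪(q y).1, x⟫}) fun y hy =>
      (isOpen_lt continuous_const (by fun_prop)).mem_nhds (hq3 y hy)
  set sides : Finset (E3 × ℝ) := (Finset.univ : Finset (Fin 3)).image
      (fun i => (EuclideanSpace.single i (1 : ℝ), R)) ∪
    (Finset.univ : Finset (Fin 3)).image (fun i => (-EuclideanSpace.single i (1 : ℝ), R))
  set s := sides ∪ t.image q
  have hbig : K' ⊆ poly (fun p : s => p.1.1) (fun p : s => p.1.2) := by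
    rintro a ha ⟨p, hp⟩
    simp only [s, sides, Finset.mem_union, Finset.mem_image, Finset.mem_univ, true_and] at hp
    have hb : ∀ i, |a i| ≤ R := fun i => by
      have h1 := PiLp.norm_apply_le a i
      rw [Real.norm_eq_abs] at h1
      exact h1.trans (mem_closedBall_zero_iff.1 (hR (interior_subset (hsub ha))))
    rcases hp with (⟨i, rfl⟩ | ⟨i, rfl⟩) | ⟨y, hy, rfl⟩
    · simpa [EuclideanSpace.inner_single_left] using (abs_le.1 (hb i)).2
    · simp only [inner_neg_left, EuclideanSpace.inner_single_left]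
      simp
      linarith [(abs_le.1 (hb i)).1]
    · exact hq2 y (ht y hy) a ha
  have hC' : poly (fun p : s => p.1.1) (fun p : s => p.1.2) ⊆ C := by
    intro x hx i
    have h1 := hx ⟨(EuclideanSpace.single i (1 : ℝ), R), by simp [s, sides]⟩
    have h2 := hx ⟨(-EuclideanSpace.single i (1 : ℝ), R), by simp [s, sides]⟩
    simp [EuclideanSpace.inner_single_left] at h1 h2
    exact abs_le.2 ⟨by linarith, h1⟩
  refine ⟨s, ⟨fun p => ?_, fun p p' h1 h2 => Subtype.ext (Prod.ext h1 h2),
    hC.of_isClosed_subset (isClosed_poly _ _) hC', hne.mono (interior_mono hbig)⟩, hbig, ?_⟩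
  · obtain ⟨p, hp⟩ := p
    simp only [s, sides, Finset.mem_union, Finset.mem_image, Finset.mem_univ, true_and] at hp
    rcases hp with (⟨i, rfl⟩ | ⟨i, rfl⟩) | ⟨y, hy, rfl⟩
    · simp
    · simp
    · exact hq1 y (ht y hy)
  · intro x hx
    by_contra hxK
    obtain ⟨y, hy, hxy⟩ := mem_iUnion₂.1
      (hcov ⟨hC' hx, fun h => hxK (interior_subset h)⟩)
    have := hx ⟨q y, by simp [s]; exact Or.inr ⟨y, hy, rfl⟩⟩
    exact absurd hxy (not_lt.2 this)

theorem projBody_mono {K K' : Set E3} (hK' : IsCompact K') (h : K ⊆ K') :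
    projBody K ⊆ projBody K' := fun _ hy u hu => (hy u hu).trans (area_mono hK' h u)

/-- The bound for every convex body. -/
theorem body_bound {K : Set E3} (hK : IsCompact K) (hKc : Convex ℝ K)
    (hne : (interior K).Nonempty) :
    (1 + 5 * √5 / 2) * volume.real K ^ 2 ≤ volume.real (projBody K) := by
  obtain ⟨x₀, hx₀⟩ := hne
  set c := 1 + 5 * √5 / 2
  have hc : 0 ≤ c := by positivity
  refine le_of_small (K := c * 6 * volume.real K ^ 2) fun ε hε hε1 => ?_
  rcases hε1.eq_or_lt with rfl | hε1
  · have := measureReal_nonneg (μ := (volume : Measure E3)) (s := projBody K)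
    nlinarith [mul_nonneg hc (sq_nonneg (volume.real K))]
  set K' := (fun y => ε • x₀ + y) '' ((1 - ε) • K) with hK'def
  have hK' : IsCompact K' := (hK.smul _).image (by fun_prop)
  have hKc' : Convex ℝ K' := (hKc.smul _).translate _
  have hvol : volume.real K' = (1 - ε) ^ 3 * volume.real K := by
    rw [measureReal_def, hK'def, image_add_left, measure_preimage_add, Measure.addHaar_smul,
      ENNReal.toReal_mul, finrank_euclideanSpace_fin, ENNReal.toReal_ofReal (abs_nonneg _),
      abs_of_nonneg (pow_nonneg (by linarith) 3), ← measureReal_def]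
  have hsub : K' ⊆ interior K := by
    rintro _ ⟨_, ⟨y, hy, rfl⟩, rfl⟩
    have := hKc.combo_interior_self_mem_interior hx₀ hy hε (by linarith : 0 ≤ 1 - ε) (by ring)
    exact this
  have hne' : (interior K').Nonempty := by
    have : ((fun y => ε • x₀ + (1 - ε) • y) '' interior K) ⊆ interior K' := by
      refine interior_maximal ?_ ?_
      · rintro _ ⟨y, hy, rfl⟩
        exact ⟨_, smul_mem_smul_set (interior_subset hy), rfl⟩
      · exact ((isOpenMap_add_left _).comp (isOpenMap_smul₀ (by linarith : (1 - ε) ≠ 0))) _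
          isOpen_interior
    exact (Set.Nonempty.image _ ⟨x₀, hx₀⟩).mono this
  obtain ⟨s, hp, hin, hout⟩ := exists_poly hK hK' hKc' hne' hsub
  have h1 := poly_bound hp
  have h2 := measureReal_mono (μ := (volume : Measure E3)) hin hp.compact.measure_lt_top.ne
  have h3 := measureReal_mono (μ := (volume : Measure E3)) (projBody_mono hK hout)
    (projBody_finite K).ne
  rw [hvol] at h2
  have h4 : 1 - 6 * ε ≤ ((1 - ε) ^ 3) ^ 2 := by
    have := one_add_mul_le_pow (a := -ε) (by linarith) 6
    rw [← pow_mul]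
    norm_num at this
    calc 1 - 6 * ε ≤ (1 + -ε) ^ 6 := by linarith
      _ = _ := by ring
  have h5 := pow_le_pow_left₀ (mul_nonneg (pow_nonneg (by linarith) 3) measureReal_nonneg) h2 2
  have h6 : c * ((1 - ε) ^ 3 * volume.real K) ^ 2 ≤ volume.real (projBody K) :=
    (mul_le_mul_of_nonneg_left h5 hc).trans (h1.trans h3)
  have h7 := mul_le_mul_of_nonneg_left h4 (mul_nonneg hc (sq_nonneg (volume.real K)))
  rw [mul_pow] at h6
  linear_combination h6 + h7

end Vale.Agent.P237.General
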