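import Vale.Agent.P237.General.Profile
import Vale.Agent.P227.Power

/-!
Facets of a polytope given by half spaces, and first order volume bounds.
-/

namespace Vale.Agent.P237.General

open MeasureTheory Set Filter Topology
open scoped RealInnerProductSpace ENNReal Pointwise

/-- A frame whose last vector is a given unit vector. -/
noncomputable def fr (u : E3) : Frame :=
  if h : ‖u‖ = 1 then (exists_frame h).choose else EuclideanSpace.basisFun (Fin 3) ℝ

theorem fr_two {u : E3} (h : ‖u‖ = 1) : fr u 2 = u := by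
  rw [fr, dif_pos h]; exact (exists_frame h).choose_spec

variable {ι : Type*}

/-- An intersection of half spaces. -/
def poly (n : ι → E3) (h : ι → ℝ) : Set E3 := {x | ∀ i, ⟪n i, x⟫ ≤ h i}

/-- The area of a facet. -/
noncomputable def facet (n : ι → E3) (h : ι → ℝ) (i : ι) : ℝ :=
  volume.real (slice (fr (n i)) (poly n h) (h i))

/-- Data of a nondegenerate polytope. -/
structure IsPoly (n : ι → E3) (h : ι → ℝ) : Prop where
  unit : ∀ i, ‖n i‖ = 1
  distinct : ∀ i j, n i = n j → h i = h j → i = j
  compact : IsCompact (poly n h)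
  inner : (interior (poly n h)).Nonempty

theorem convex_poly (n : ι → E3) (h : ι → ℝ) : Convex ℝ (poly n h) := by
  intro x hx y hy a b ha hb hab i
  rw [inner_add_right, real_inner_smul_right, real_inner_smul_right]
  calc a * ⟪n i, x⟫ + b * ⟪n i, y⟫ ≤ a * h i + b * h i :=
      add_le_add (mul_le_mul_of_nonneg_left (hx i) ha) (mul_le_mul_of_nonneg_left (hy i) hb)
    _ = h i := by rw [← add_mul, hab, one_mul]

theorem isClosed_poly (n : ι → E3) (h : ι → ℝ) : IsClosed (poly n h) := by
  simp only [poly, ofPred_forall]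
  exact isClosed_iInter fun i => isClosed_le (by fun_prop) continuous_const

variable [Fintype ι] {n : ι → E3} {h : ι → ℝ} (hp : IsPoly n h)

omit [Fintype ι] in
theorem facet_nonneg (n : ι → E3) (h : ι → ℝ) (i : ι) : 0 ≤ facet n h i := measureReal_nonneg

include hp

omit [Fintype ι] in
theorem volume_poly_pos : 0 < volume.real (poly n h) :=
  ENNReal.toReal_pos (Measure.measure_pos_of_nonempty_interior volume hp.inner).ne'
    hp.compact.measure_lt_top.ne

/-- Upper bound for the volume of the polytope plus a small multiple of a set. -/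
theorem gain_upper {Q : Set E3} (hQ : IsCompact Q) {q : ι → ℝ} (hq : ∀ i, 0 ≤ q i)
    (hQq : ∀ i, ∀ y ∈ Q, ⟪n i, y⟫ ≤ q i) {δ : ℝ} (hδ : 0 < δ) :
    ∃ t₀ > 0, ∀ t, 0 ≤ t → t ≤ t₀ → volume.real (poly n h + t • Q)
      ≤ volume.real (poly n h) + t * ∑ i, q i * (facet n h i + δ) := by
  obtain ⟨R, hR⟩ := (hp.compact.isBounded.union hQ.isBounded).subset_closedBall 0
  set U : ℝ → Set E3 := fun t =>
    Metric.closedBall 0 (2 * R) ∩ {x | ∀ i, ⟪n i, x⟫ ≤ h i + t * q i} with hU
  set S : ι → ℝ → Set E3 := fun i t =>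
    U t ∩ {x | h i ≤ ⟪n i, x⟫ ∧ ⟪n i, x⟫ ≤ h i + t * q i} with hS
  have hUc : ∀ t, IsCompact (U t) := fun t => by
    refine (isCompact_closedBall _ _).inter_right ?_
    simp only [ofPred_forall]
    exact isClosed_iInter fun i => isClosed_le (by fun_prop) continuous_const
  have hSc : ∀ i t, IsCompact (S i t) := fun i t => by
    refine (hUc t).inter_right ?_
    rw [ofPred_and]
    exact (isClosed_le continuous_const (by fun_prop)).inter
      (isClosed_le (by fun_prop) continuous_const)
  have hmono : ∀ i {t t'}, t ≤ t' → S i t ⊆ S i t' := by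
    rintro i t t' htt x ⟨⟨hb, hx⟩, h1, h2⟩
    exact ⟨⟨hb, fun j => (hx j).trans (by nlinarith [hq j])⟩, h1, h2.trans (by nlinarith [hq i])⟩
  set e : ι → Frame := fun i => fr (n i)
  set T : ι → ℕ → Set E2 := fun i m => coords (e i 0) (e i 1) '' S i (1 / (m + 1))
  have hTc : ∀ i m, IsCompact (T i m) := fun i m => (hSc i _).image (continuous_coords _ _)
  have hlim : ∀ i, ∀ᶠ m in atTop, volume.real (T i m) ≤ facet n h i + δ := by
    intro i
    have hanti : Antitone (T i) := fun m m' hmm => image_mono (hmono i (by gcongr))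
    have ht := tendsto_measure_iInter_atTop (μ := (volume : Measure E2))
      (fun m => (hTc i m).measurableSet.nullMeasurableSet) hanti
      ⟨0, (hTc i 0).measure_lt_top.ne⟩
    have hsub : ⋂ m, T i m ⊆ slice (e i) (poly n h) (h i) := by
      intro y hy
      rw [mem_iInter] at hy
      choose x hx hxy using hy
      have e1 : ∀ m, x m = mk (e i) (y, ⟪n i, x m⟫) := fun m => by
        conv_lhs => rw [← mk_chart (e i) (x m)]
        rw [chart_apply, hxy, show e i 2 = n i from fr_two (hp.unit i)]
      have l0 : Tendsto (fun m : ℕ => 1 / ((m : ℝ) + 1)) atTop (𝓝 0) :=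
        tendsto_one_div_add_atTop_nhds_zero_nat
      have l1 : Tendsto (fun m => ⟪n i, x m⟫) atTop (𝓝 (h i)) := by
        refine tendsto_of_tendsto_of_tendsto_of_le_of_le tendsto_const_nhds ?_
          (fun m => (hx m).2.1) (fun m => (hx m).2.2)
        simpa using (l0.mul_const (q i)).const_add (h i)
      have l2 : Tendsto x atTop (𝓝 (mk (e i) (y, h i))) := by
        rw [funext e1]
        exact ((continuous_mk (e i)).tendsto _).comp (tendsto_const_nhds.prodMk_nhds l1)
      intro j
      refine le_of_tendsto_of_tendsto (((continuous_const.inner continuous_id).tendsto _).comp l2)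
        ?_ (Filter.Eventually.of_forall fun m => (hx m).1.2 j)
      simpa using (l0.mul_const (q j)).const_add (h j)
    have hlt : volume (⋂ m, T i m) < ENNReal.ofReal (facet n h i + δ) := by
      refine (measure_mono hsub).trans_lt ?_
      rw [← ENNReal.ofReal_toReal (isCompact_slice (e i) hp.compact (h i)).measure_lt_top.ne]
      exact (ENNReal.ofReal_lt_ofReal_iff (by linarith [facet_nonneg n h i])).2
        (by change facet n h i < _; linarith)
    filter_upwards [ht.eventually_lt_const hlt] with m hm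
    exact (ENNReal.le_ofReal_iff_toReal_le (hTc i m).measure_lt_top.ne
      (by linarith [facet_nonneg n h i])).1 hm.le
  obtain ⟨m, hm⟩ := (Filter.eventually_all.2 hlim).exists
  refine ⟨1 / (m + 1), by positivity, fun t ht0 htm => ?_⟩
  have ht1 : t ≤ 1 := htm.trans (by rw [div_le_one (by positivity)]; simp)
  have hsub : poly n h + t • Q ⊆ poly n h ∪ ⋃ i, S i t := by
    rintro _ ⟨a, ha, _, ⟨b, hb, rfl⟩, rfl⟩
    have hin : a + t • b ∈ U t := by
      refine ⟨?_, fun i => ?_⟩
      · rw [mem_closedBall_zero_iff]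
        have h1 := mem_closedBall_zero_iff.1 (hR (Or.inl ha))
        have h2 := mem_closedBall_zero_iff.1 (hR (Or.inr hb))
        refine (norm_add_le _ _).trans ?_
        rw [norm_smul, Real.norm_eq_abs, abs_of_nonneg ht0]
        nlinarith [norm_nonneg b]
      · rw [inner_add_right, real_inner_smul_right]
        exact add_le_add (ha i) (mul_le_mul_of_nonneg_left (hQq i b hb) ht0)
    by_cases hmem : a + t • b ∈ poly n h
    · exact Or.inl hmem
    · obtain ⟨i, hi⟩ := not_forall.1 hmem
      exact Or.inr (mem_iUnion.2 ⟨i, hin, (lt_of_not_ge hi).le, hin.2 i⟩)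
  have hpiece : ∀ i, volume.real (S i t) ≤ t * (q i * (facet n h i + δ)) := by
    intro i
    have hsub' : chart (e i) '' S i t ⊆ T i m ×ˢ Icc (h i) (h i + t * q i) := by
      rintro _ ⟨x, hx, rfl⟩
      refine ⟨⟨x, hmono i htm hx, rfl⟩, ?_⟩
      change ⟪e i 2, x⟫ ∈ _
      rw [show e i 2 = n i from fr_two (hp.unit i)]
      exact hx.2
    have := measureReal_mono (μ := (volume : Measure (E2 × ℝ))) hsub'
      ((hTc i m).prod isCompact_Icc).measure_lt_top.ne
    rw [measureReal_def, volume_chart (e i) (hSc i t), ← measureReal_def, Measure.volume_eq_prod,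
      measureReal_prod_prod, Real.volume_real_Icc_of_le (by nlinarith [hq i])] at this
    refine this.trans ?_
    have := mul_le_mul_of_nonneg_right (hm i) (mul_nonneg ht0 (hq i))
    linarith
  have hfin : volume (poly n h ∪ ⋃ i, S i t) ≠ ⊤ :=
    (hp.compact.union (isCompact_iUnion fun i => hSc i t)).measure_lt_top.ne
  refine (measureReal_mono hsub hfin).trans ((measureReal_union_le _ _).trans ?_)
  refine add_le_add le_rfl ((measureReal_iUnion_fintype_le _).trans ?_)
  rw [Finset.mul_sum]
  exact Finset.sum_le_sum fun i _ => hpiece i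

/-- Lower bound for the volume swept by the facets. -/
theorem gain_lower {u : E3} {τ : ℝ} (hτ : 0 < τ) :
    volume.real (poly n h) + τ * ∑ i, max ⟪n i, u⟫ 0 * facet n h i
      ≤ volume.real (poly n h + segment ℝ 0 (τ • u)) := by
  classical
  set s : ι → E3 → ℝ := fun i x => (⟪n i, x⟫ - h i) / ⟪n i, u⟫
  set T : ι → Set E3 := fun i =>
    {x | 0 < ⟪n i, u⟫ ∧ 0 < s i x ∧ s i x ≤ τ ∧ x - s i x • u ∈ poly n h}
  have hTm : ∀ i, MeasurableSet (T i) := by
    intro i
    by_cases hc : 0 < ⟪n i, u⟫
    · have hs : Continuous (s i) := by fun_prop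
      simp only [T, hc, true_and]
      exact (measurableSet_lt measurable_const hs.measurable).inter
        ((measurableSet_le hs.measurable measurable_const).inter
          ((isClosed_poly n h).preimage (continuous_id.sub (hs.smul continuous_const))).measurableSet)
    · simp [T, hc]
  set e : ι → Frame := fun i => fr (n i)
  have he : ∀ i, e i 2 = n i := fun i => fr_two (hp.unit i)
  have hslice : ∀ i z, 0 < ⟪n i, u⟫ → (fun y => (y, z)) ⁻¹' (mk (e i) ⁻¹' T i)
      = if 0 < (z - h i) / ⟪n i, u⟫ ∧ (z - h i) / ⟪n i, u⟫ ≤ τ then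
        (fun y => y + (-((z - h i) / ⟪n i, u⟫) • coords (e i 0) (e i 1) u)) ⁻¹'
          slice (e i) (poly n h) (h i) else ∅ := by
    intro i z hc
    ext y
    have hz : ⟪n i, mk (e i) (y, z)⟫ = z := by
      simpa [chart_apply, he] using congrArg Prod.snd (chart_mk (e i) (y, z))
    have hmk : mk (e i) (y, z) - ((z - h i) / ⟪n i, u⟫) • u
        = mk (e i) (y + (-((z - h i) / ⟪n i, u⟫) • coords (e i 0) (e i 1) u), h i) := by
      rw [← mk_chart (e i) (mk (e i) (y, z) - ((z - h i) / ⟪n i, u⟫) • u), map_sub, map_smul,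
        chart_mk, chart_apply, he]
      congr 1
      refine Prod.ext ?_ ?_
      · simp [sub_eq_add_neg]
      · simp; field_simp; ring
    split_ifs with hh
    · have hlt : h i < z := by
        have := (div_pos_iff.1 hh.1).resolve_right (fun r => absurd r.2 (not_lt.2 hc.le))
        linarith [this.1]
      simp [T, s, hz, hc, hh, hmk, hlt, slice]
    · simp only [mem_empty_iff_false, iff_false, mem_preimage]
      rintro ⟨-, h1, h2, -⟩
      exact hh ⟨by simpa [s, hz] using h1, by simpa [s, hz] using h2⟩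
  have hvol : ∀ i, volume (T i) = ENNReal.ofReal (τ * (max ⟪n i, u⟫ 0 * facet n h i)) := by
    intro i
    rcases le_or_gt ⟪n i, u⟫ 0 with hc | hc
    · rw [show T i = ∅ from eq_empty_of_forall_notMem fun x hx => absurd hx.1 (not_lt.2 hc),
        max_eq_right hc]
      simp
    have hT' : MeasurableSet (mk (e i) ⁻¹' T i) := (continuous_mk (e i)).measurable (hTm i)
    have e1 : volume (T i) = volume (mk (e i) ⁻¹' T i) := by
      rw [← (mp_chart (e i)).measure_preimage hT'.nullMeasurableSet, ← preimage_comp,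
        show mk (e i) ∘ chart (e i) = id from funext (mk_chart (e i)), preimage_id]
    rw [e1, Measure.volume_eq_prod, Measure.prod_apply_symm hT']
    have e2 : ∀ z, volume ((fun y => (y, z)) ⁻¹' (mk (e i) ⁻¹' T i))
        = (Ioc (h i) (h i + τ * ⟪n i, u⟫)).indicator
          (fun _ => volume (slice (e i) (poly n h) (h i))) z := by
      intro z
      rw [hslice i z hc]
      by_cases hz : z ∈ Ioc (h i) (h i + τ * ⟪n i, u⟫)
      · rw [indicator_of_mem hz, if_pos, measure_preimage_add_right]
        exact ⟨div_pos (by linarith [hz.1]) hc, (div_le_iff₀ hc).2 (by linarith [hz.2])⟩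
      · rw [indicator_of_notMem hz, if_neg, measure_empty]
        rintro ⟨h1, h2⟩
        have h1' : 0 < z - h i := by
          rcases div_pos_iff.1 h1 with ⟨a, -⟩ | ⟨-, b⟩
          · exact a
          · linarith
        exact hz ⟨by linarith, by linarith [(div_le_iff₀ hc).1 h2]⟩
    rw [lintegral_congr e2, lintegral_indicator measurableSet_Ioc, lintegral_const,
      Measure.restrict_apply_univ, Real.volume_Ioc, max_eq_left hc.le,
      ← ENNReal.ofReal_toReal (isCompact_slice (e i) hp.compact (h i)).measure_lt_top.ne,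
      ← ENNReal.ofReal_mul ENNReal.toReal_nonneg]
    congr 1
    change facet n h i * _ = _
    ring
  have hnull : ∀ i j, i ≠ j → volume (T i ∩ T j) = 0 := by
    intro i j hij
    by_cases hc : 0 < ⟪n i, u⟫ ∧ 0 < ⟪n j, u⟫
    swap
    · rw [show T i ∩ T j = ∅ from eq_empty_of_forall_notMem fun x hx => hc ⟨hx.1.1, hx.2.1⟩]
      simp
    have heq : ∀ x ∈ T i ∩ T j, s i x = s j x ∧ ⟪n j, x - s i x • u⟫ = h j ∧
        ⟪n i, x - s i x • u⟫ = h i := by
      rintro x ⟨⟨-, -, -, hi⟩, -, -, -, hj⟩
      have a1 : ⟪n i, x⟫ - h i = s i x * ⟪n i, u⟫ := by rw [div_mul_cancel₀ _ hc.1.ne']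
      have a2 : ⟪n j, x⟫ - h j = s j x * ⟪n j, u⟫ := by rw [div_mul_cancel₀ _ hc.2.ne']
      have b1 := hi j
      have b2 := hj i
      rw [inner_sub_right, real_inner_smul_right] at b1 b2
      have : s i x = s j x := by nlinarith [hc.1, hc.2]
      refine ⟨this, ?_, ?_⟩ <;> rw [inner_sub_right, real_inner_smul_right]
      · rw [this]; linarith
      · linarith
    by_cases hv : coords (e i 0) (e i 1) (n j) = 0
    · -- parallel normals
      refine le_antisymm (le_of_eq ?_) zero_le
      rw [show T i ∩ T j = ∅ from ?_, measure_empty]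
      refine eq_empty_of_forall_notMem fun x hx => ?_
      obtain ⟨-, g1, g2⟩ := heq x hx
      have hpar : n j = ⟪n i, n j⟫ • n i := by
        conv_lhs => rw [← mk_chart (e i) (n j)]
        simp [mk, chart_apply, hv, he]
      have hcu : ⟪n j, u⟫ = ⟪n i, n j⟫ * ⟪n i, u⟫ := by
        conv_lhs => rw [hpar, real_inner_smul_left]
      have habs : |⟪n i, n j⟫| = 1 := by
        have := congrArg norm hpar
        rwa [norm_smul, hp.unit, hp.unit, mul_one, Real.norm_eq_abs, eq_comm] at this
      have hone : ⟪n i, n j⟫ = 1 := by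
        rcases abs_eq (zero_le_one' ℝ) |>.1 habs with r | r
        · exact r
        · rw [r] at hcu; nlinarith [hc.1, hc.2]
      rw [hone, one_smul] at hpar
      rw [hpar, g2] at g1
      exact hij (hp.distinct i j hpar.symm g1)
    · have hT' : MeasurableSet (mk (e i) ⁻¹' (T i ∩ T j)) :=
        (continuous_mk (e i)).measurable ((hTm i).inter (hTm j))
      have e1 : volume (T i ∩ T j) = volume (mk (e i) ⁻¹' (T i ∩ T j)) := by
        rw [← (mp_chart (e i)).measure_preimage hT'.nullMeasurableSet, ← preimage_comp,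
          show mk (e i) ∘ chart (e i) = id from funext (mk_chart (e i)), preimage_id]
      rw [e1, Measure.volume_eq_prod, Measure.prod_apply_symm hT', lintegral_eq_zero_iff'
        (measurable_measure_prodMk_right hT').aemeasurable]
      refine Filter.Eventually.of_forall fun z => measure_mono_null ?_
        (Vale.Agent.P227.hyperplane_null hv
          (h j - z * ⟪n j, n i⟫ + (z - h i) / ⟪n i, u⟫ * ⟪n j, u⟫))
      intro y hy
      obtain ⟨-, g1, -⟩ := heq _ hy
      have hz : s i (mk (e i) (y, z)) = (z - h i) / ⟪n i, u⟫ := by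
        have : ⟪n i, mk (e i) (y, z)⟫ = z := by
          simpa [chart_apply, he] using congrArg Prod.snd (chart_mk (e i) (y, z))
        simp [s, this]
      rw [inner_sub_right, real_inner_smul_right, hz, inner_mk, he] at g1
      change ⟪coords (e i 0) (e i 1) (n j), y⟫ = _
      rw [show ⟪coords (e i 0) (e i 1) (n j), y⟫
          = y 0 * ⟪e i 0, n j⟫ + y 1 * ⟪e i 1, n j⟫ from by
        rw [PiLp.inner_apply, Fin.sum_univ_two, coords_zero, coords_one]; rfl]
      rw [real_inner_comm (n i) (n j)]
      simp only at g1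
      linarith
  have hdis : ∀ i, Disjoint (poly n h) (T i) := fun i => Set.disjoint_left.2 fun x hx hT => by
    have h1 := hT.2.1
    rcases div_pos_iff.1 h1 with ⟨a, -⟩ | ⟨-, b⟩
    · linarith [hx i]
    · linarith [hT.1]
  have hsub : poly n h ∪ ⋃ i, T i ⊆ poly n h + segment ℝ 0 (τ • u) := by
    rintro x (hx | hx)
    · exact ⟨x, hx, 0, left_mem_segment ℝ _ _, add_zero x⟩
    · obtain ⟨i, -, h1, h2, h3⟩ := mem_iUnion.1 hx
      refine ⟨_, h3, s i x • u, ?_, sub_add_cancel _ _⟩
      rw [segment_zero_eq]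
      exact ⟨s i x / τ, ⟨by positivity, (div_le_one hτ).2 h2⟩, by
        simp only [smul_smul, div_mul_cancel₀ _ hτ.ne']⟩
  have hfin := (hp.compact.add (isCompact_segment (τ • u))).measure_lt_top (μ := (volume : Measure E3))
  have hU : volume (⋃ i, T i) = ∑ i, volume (T i) := by
    rw [measure_iUnion₀ (fun i j hij => hnull i j hij) fun i => (hTm i).nullMeasurableSet,
      tsum_fintype]
  have h0 := (measure_union (disjoint_iUnion_right.2 hdis)
    (MeasurableSet.iUnion hTm)).symm.trans_le (measure_mono (μ := (volume : Measure E3)) hsub)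
  rw [hU] at h0
  simp only [hvol] at h0
  rw [← ENNReal.ofReal_sum_of_nonneg (fun i _ => by
    have := facet_nonneg n h i
    positivity), ← Finset.mul_sum] at h0
  have h1 := ENNReal.toReal_mono hfin.ne h0
  rwa [ENNReal.toReal_add hp.compact.measure_lt_top.ne ENNReal.ofReal_ne_top,
    ENNReal.toReal_ofReal (mul_nonneg hτ.le (Finset.sum_nonneg fun i _ => by
      have := facet_nonneg n h i
      positivity))] at h1

/-- The area of a projection through the facets. -/
theorem area_eq {u : E3} (hu : ‖u‖ = 1) :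
    area (poly n h) u = ∑ i, max ⟪n i, u⟫ 0 * facet n h i := by
  have hv := fun {τ : ℝ} (hτ : 0 ≤ τ) =>
    volume_add_segment (K := poly n h) hp.compact (convex_poly n h) hu hτ
  refine le_antisymm ?_ ?_
  · refine le_of_small (K := ∑ i, max ⟪n i, u⟫ 0) fun δ hδ _ => ?_
    obtain ⟨t₀, ht₀, ht⟩ := gain_upper hp (Q := segment ℝ 0 u) (isCompact_segment u)
      (q := fun i => max ⟪n i, u⟫ 0) (fun i => le_max_right _ _) (by
        intro i y hy
        rw [segment_zero_eq] at hy
        obtain ⟨c, hc, rfl⟩ := hy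
        rw [real_inner_smul_right]
        nlinarith [le_max_left ⟪n i, u⟫ 0, le_max_right ⟪n i, u⟫ 0, hc.1, hc.2]) hδ
    have h1 := ht t₀ ht₀.le le_rfl
    rw [smul_segment_zero, hv ht₀.le] at h1
    have h2 := le_of_mul_le_mul_left (show t₀ * area (poly n h) u
      ≤ t₀ * ∑ i, max ⟪n i, u⟫ 0 * (facet n h i + δ) by linarith) ht₀
    simp only [mul_add, Finset.sum_add_distrib, ← Finset.sum_mul] at h2
    linarith
  · have h1 := gain_lower hp (u := u) one_pos
    rw [hv zero_le_one] at h1
    linarith

theorem area_eq_half {u : E3} (hu : ‖u‖ = 1) :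
    area (poly n h) u = (∑ i, facet n h i * |⟪n i, u⟫|) / 2 := by
  have h1 := area_eq hp hu
  have h2 := area_eq hp (u := -u) (by simpa using hu)
  rw [area_neg hp.compact hu] at h2
  have : ∑ i, facet n h i * |⟪n i, u⟫| = ∑ i, max ⟪n i, u⟫ 0 * facet n h i
      + ∑ i, max ⟪n i, -u⟫ 0 * facet n h i := by
    rw [← Finset.sum_add_distrib]
    refine Finset.sum_congr rfl fun i _ => ?_
    rw [inner_neg_right]
    rcases le_total ⟪n i, u⟫ 0 with hc | hc
    · rw [abs_of_nonpos hc, max_eq_right hc, max_eq_left (neg_nonneg.2 hc)]; ring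
    · rw [abs_of_nonneg hc, max_eq_left hc, max_eq_right (neg_nonpos.2 hc)]; ring
  linarith

/-- Minkowski's first inequality against the reflected body. -/
theorem width_sum : 6 * volume.real (poly n h) ≤ ∑ i, facet n h i * wid (poly n h) (n i) := by
  set V := volume.real (poly n h)
  refine le_of_small (K := ∑ i, wid (poly n h) (n i)) fun δ hδ _ => ?_
  set Q := poly n h + -poly n h
  obtain ⟨t₀, ht₀, ht⟩ := gain_upper hp (Q := Q) (hp.compact.add hp.compact.neg)
    (q := fun i => wid (poly n h) (n i)) (fun i => wid_nonneg _ _) (by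
      rintro i _ ⟨a, ha, b, hb, rfl⟩
      obtain ⟨c, d, hcd, hI⟩ := icc_of_convex
        (hp.compact.image (by fun_prop : Continuous fun y => ⟪n i, y⟫))
        ((convex_poly n h).linear_image (innerₛₗ ℝ (n i)))
        ((hp.inner.mono interior_subset).image _)
      have a1 : ⟪n i, a⟫ ∈ Icc c d := hI ▸ mem_image_of_mem _ ha
      have a2 : ⟪n i, -b⟫ ∈ Icc c d := hI ▸ mem_image_of_mem _ (by simpa using hb)
      rw [inner_neg_right] at a2
      rw [wid, hI, Real.volume_real_Icc_of_le hcd, inner_add_right]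
      linarith [a1.2, a2.1]) hδ
  have h1 := ht t₀ ht₀.le le_rfl
  obtain ⟨x, hx⟩ := hp.inner.mono interior_subset
  have hV : 0 < V := volume_poly_pos hp
  set r := V ^ ((3 : ℝ)⁻¹)
  have hr : r ^ 3 = V := Real.rpow_inv_natCast_pow hV.le (by norm_num)
  have hs : ∀ c : ℝ, 0 ≤ c → ∀ S : Set E3, volume.real (c • S) = c ^ 3 * volume.real S := by
    intro c hc S
    rw [measureReal_def, Measure.addHaar_smul, ENNReal.toReal_mul, finrank_euclideanSpace_fin,
      ENNReal.toReal_ofReal (abs_nonneg _), abs_of_nonneg (by positivity), ← measureReal_def]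
  have hb := bm_root (A := (1 + t₀) • poly n h) (B := t₀ • -poly n h) (x := (1 + t₀) * r)
    (y := t₀ * r) (hp.compact.smul _) (hp.compact.neg.smul _)
    (hp.compact.add ((hp.compact.add hp.compact.neg).smul t₀))
    ⟨_, smul_mem_smul_set hx⟩ ⟨t₀ • -x, smul_mem_smul_set (by simpa using hx)⟩ (by
      rintro _ ⟨_, ⟨a, ha, rfl⟩, _, ⟨b, hb, rfl⟩, rfl⟩
      exact ⟨a, ha, t₀ • (a + b), smul_mem_smul_set (add_mem_add ha hb), by module⟩)
    (by positivity) (by positivity)
    (by rw [hs _ (by positivity), mul_pow, hr])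
    (by rw [hs _ ht₀.le, mul_pow, hr, measureReal_def (s := -poly n h), Measure.measure_neg]; rfl)
  have h3 : (1 + 2 * t₀) ^ 3 * V ≤ volume.real (poly n h + t₀ • Q) := by
    refine le_trans (le_of_eq ?_) hb
    rw [← add_mul, mul_pow, hr]; ring
  simp only [mul_add, Finset.sum_add_distrib, ← Finset.sum_mul] at h1
  rw [show ∑ i, wid (poly n h) (n i) * facet n h i = ∑ i, facet n h i * wid (poly n h) (n i) from
    Finset.sum_congr rfl fun i _ => mul_comm _ _] at h1
  refine le_of_mul_le_mul_left ?_ ht₀
  nlinarith [h1, h3, mul_nonneg (mul_nonneg ht₀.le ht₀.le) hV.le,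
    mul_nonneg (mul_nonneg (mul_nonneg ht₀.le ht₀.le) ht₀.le) hV.le]

end Vale.Agent.P237.General
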