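import Vale.Agent.P237.General.Zonotope

/-!
The layer inequality for root-concave profiles on an interval.
-/

namespace Vale.Agent.P237.General

open MeasureTheory Set
open scoped ENNReal

/-- A concave function with values in the unit interval and supremum one. -/
theorem layer {G : ℝ → ℝ} {lo hi : ℝ} (hlh : lo ≤ hi) (hm : Measurable G)
    (h0 : ∀ x, 0 ≤ G x) (h1 : ∀ x, G x ≤ 1)
    (hc : ∀ x ∈ Icc lo hi, ∀ y ∈ Icc lo hi, ∀ s : ℝ, 0 ≤ s → s ≤ 1 →
      (1 - s) * G x + s * G y ≤ G ((1 - s) * x + s * y))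
    (hsup : ∀ t < 1, ∃ x ∈ Icc lo hi, t ≤ G x) :
    hi - lo + 3 * ∫ x in Icc lo hi, G x ^ 2 ≤ 4 * ∫ x in Icc lo hi, G x := by
  set μ := (volume : Measure ℝ).restrict (Icc lo hi)
  set ν := (volume : Measure ℝ).restrict (Ioc (0 : ℝ) 1) with hν
  have : IsFiniteMeasure μ := isFiniteMeasure_restrict.2 (by simp)
  have : IsFiniteMeasure ν := isFiniteMeasure_restrict.2 (by simp)
  set E : ℝ → Set ℝ := fun t => Icc lo hi ∩ G ⁻¹' Ici t with hE
  have hEm : ∀ t, MeasurableSet (E t) := fun t => measurableSet_Icc.inter (hm measurableSet_Ici)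
  set L : ℝ → ℝ := fun t => volume.real (E t) with hL
  have hf : Measurable fun p : ℝ × ℝ => if p.2 ≤ G p.1 then 4 - 6 * p.2 else 0 :=
    Measurable.ite (measurableSet_le measurable_snd (hm.comp measurable_fst))
      (by fun_prop) measurable_const
  have hint : Integrable (fun p : ℝ × ℝ => if p.2 ≤ G p.1 then 4 - 6 * p.2 else 0) (μ.prod ν) := by
    refine Integrable.mono' (integrable_const (4 : ℝ)) hf.aestronglyMeasurable ?_
    have : ∀ᵐ p ∂μ.prod ν, p.2 ∈ Ioc (0 : ℝ) 1 :=
      Measure.quasiMeasurePreserving_snd.ae (ae_restrict_mem measurableSet_Ioc)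
    filter_upwards [this] with p hp
    split_ifs
    · rw [Real.norm_eq_abs, abs_le]; constructor <;> linarith [hp.1, hp.2]
    · simp
  have hx : ∀ x, ∫ t, (if t ≤ G x then 4 - 6 * t else 0) ∂ν = 4 * G x - 3 * G x ^ 2 := by
    intro x
    have e : (fun t : ℝ => if t ≤ G x then 4 - 6 * t else 0)
        = (Iic (G x)).indicator fun t => 4 - 6 * t := by
      funext t; simp [indicator_apply]
    rw [e, hν, setIntegral_indicator measurableSet_Iic, Ioc_inter_Iic, min_eq_right (h1 x),
      ← intervalIntegral.integral_of_le (h0 x), intervalIntegral.integral_sub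
        intervalIntegrable_const
        (Continuous.intervalIntegrable (u := fun t : ℝ => 6 * t) (by fun_prop) _ _),
      intervalIntegral.integral_const, intervalIntegral.integral_const_mul, integral_id]
    simp; ring
  have ht : ∀ t, ∫ x, (if t ≤ G x then 4 - 6 * t else 0) ∂μ = (4 - 6 * t) * L t := by
    intro t
    have e : (fun x : ℝ => if t ≤ G x then 4 - 6 * t else 0)
        = (G ⁻¹' Ici t).indicator fun _ => 4 - 6 * t := by
      funext x
      by_cases h : t ≤ G x <;> simp [h]
    rw [e, setIntegral_indicator (hm measurableSet_Ici), setIntegral_const, smul_eq_mul, mul_comm]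
  have hswap := integral_integral_swap (f := fun x t => if t ≤ G x then 4 - 6 * t else 0) hint
  simp only [hx, ht] at hswap
  have hLint : Integrable (fun t => (4 - 6 * t) * L t) ν := by
    simpa only [ht] using hint.integral_prod_right
  set w := hi - lo
  have hI0 : volume.real (Icc lo hi) = w := Real.volume_real_Icc_of_le hlh
  -- concavity from the left end
  have hcc : ∀ t s : ℝ, 0 < t → t < 1 → 0 ≤ s → s ≤ 1 → (1 - s) * w + s * L t ≤ L (s * t) := by
    intro t s ht0 ht1 hs0 hs1
    obtain ⟨x, hx, hxt⟩ := hsup t ht1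
    have h := Vale.Agent.P074.BM.one_dim hs0 hs1 measurableSet_Icc (hEm t)
      (nonempty_Icc.2 hlh) ⟨x, hx, hxt⟩ (S := E (s * t)) (by
        rintro p hp q ⟨hq, hqt⟩
        refine ⟨(convex_Icc lo hi) hp hq (by linarith) hs0 (by ring), ?_⟩
        refine le_trans ?_ (hc p hp q hq s hs0 hs1)
        have : t ≤ G q := hqt
        nlinarith [mul_le_mul_of_nonneg_left this hs0, mul_nonneg (sub_nonneg.2 hs1) (h0 p)])
    have hfin : ∀ t, volume (E t) ≠ ⊤ := fun t =>
      measure_ne_top_of_subset inter_subset_left (by simp)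
    have h' := ENNReal.toReal_mono (hfin _) h
    rw [ENNReal.toReal_add (ENNReal.mul_ne_top ENNReal.ofReal_ne_top (by simp))
      (ENNReal.mul_ne_top ENNReal.ofReal_ne_top (hfin _)), ENNReal.toReal_mul,
      ENNReal.toReal_mul, ENNReal.toReal_ofReal hs0, ENNReal.toReal_ofReal (by linarith),
      ← measureReal_def, hI0] at h'
    exact h'
  set b := (3 / 2 : ℝ) * (L (2 / 3) - w)
  have hpt : ∀ t ∈ Ioo (0 : ℝ) 1, (4 - 6 * t) * (w + b * t) ≤ (4 - 6 * t) * L t := by
    rintro t ⟨t0, t1⟩
    rcases le_or_gt t (2 / 3) with h | h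
    · refine mul_le_mul_of_nonneg_left ?_ (by linarith)
      have := hcc (2 / 3) (3 / 2 * t) (by norm_num) (by norm_num) (by positivity) (by linarith)
      rw [show 3 / 2 * t * (2 / 3) = t by ring] at this
      simp only [b]; linarith
    · refine mul_le_mul_of_nonpos_left ?_ (by linarith)
      have := hcc t (2 / (3 * t)) t0 t1 (by positivity) (by rw [div_le_one (by positivity)]; linarith)
      rw [show 2 / (3 * t) * t = 2 / 3 by field_simp] at this
      have key := mul_le_mul_of_nonneg_left this (show (0 : ℝ) ≤ 3 * t / 2 by positivity)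
      rw [show 3 * t / 2 * ((1 - 2 / (3 * t)) * w + 2 / (3 * t) * L t)
        = (3 * t / 2 - 1) * w + L t by field_simp] at key
      simp only [b]; linarith
  have hmain : w ≤ ∫ t, (4 - 6 * t) * L t ∂ν := by
    have hcont : Continuous fun t : ℝ => (4 - 6 * t) * (w + b * t) := by fun_prop
    calc w = ∫ t in (0 : ℝ)..1, (4 - 6 * t) * (w + b * t) := by
          have e : (fun t : ℝ => (4 - 6 * t) * (w + b * t))
              = fun t => 4 * w + ((4 * b - 6 * w) * t + (-(6 * b)) * t ^ 2) := by funext t; ring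
          rw [e, intervalIntegral.integral_add, intervalIntegral.integral_add,
            intervalIntegral.integral_const, intervalIntegral.integral_const_mul,
            intervalIntegral.integral_const_mul, integral_id, integral_pow]
          · simp; ring
          all_goals exact Continuous.intervalIntegrable (by fun_prop) _ _
      _ = ∫ t in Ioc (0 : ℝ) 1, (4 - 6 * t) * (w + b * t) :=
          intervalIntegral.integral_of_le zero_le_one
      _ ≤ _ := by
          refine integral_mono_ae (hcont.integrableOn_Ioc) hLint ?_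
          rw [← Measure.restrict_congr_set Ioo_ae_eq_Ioc]
          exact (ae_restrict_mem measurableSet_Ioo).mono hpt
  rw [← hswap] at hmain
  have i1 : Integrable G μ := Integrable.mono' (integrable_const (1 : ℝ)) hm.aestronglyMeasurable
    (Filter.Eventually.of_forall fun x => by rw [Real.norm_eq_abs, abs_of_nonneg (h0 x)]; exact h1 x)
  have i2 : Integrable (fun x => G x ^ 2) μ := Integrable.mono' (integrable_const (1 : ℝ))
    (hm.pow_const 2).aestronglyMeasurable
    (Filter.Eventually.of_forall fun x => by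
      rw [Real.norm_eq_abs, abs_of_nonneg (sq_nonneg _)]; exact pow_le_one₀ (h0 x) (h1 x))
  rw [integral_sub (i1.const_mul 4) (i2.const_mul 3), integral_const_mul, integral_const_mul]
    at hmain
  linarith

/-- Lower bound for the integral of the root of a root-concave profile. -/
theorem profile {a : ℝ → ℝ} {lo hi M : ℝ} (hlh : lo ≤ hi) (hM : 0 < M) (hm : Measurable a)
    (h0 : ∀ x, 0 ≤ a x) (h1 : ∀ x, a x ≤ M)
    (hc : ∀ x ∈ Icc lo hi, ∀ y ∈ Icc lo hi, ∀ s : ℝ, 0 ≤ s → s ≤ 1 →
      (1 - s) * √(a x) + s * √(a y) ≤ √(a ((1 - s) * x + s * y)))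
    (hsup : ∀ m < M, ∃ x ∈ Icc lo hi, m < a x) :
    M * (hi - lo + 3 * (∫ x in Icc lo hi, a x) / M) ^ 2
      ≤ 16 * (∫ x in Icc lo hi, √(a x)) ^ 2 := by
  have hr : 0 < √M := Real.sqrt_pos.2 hM
  have h := layer (G := fun x => √(a x) / √M) hlh (hm.sqrt.div_const _)
    (fun x => by positivity)
    (fun x => (div_le_one hr).2 (Real.sqrt_le_sqrt (h1 x)))
    (fun x hx y hy s hs0 hs1 => by
      rw [mul_div_assoc', mul_div_assoc', ← add_div]
      exact div_le_div_of_nonneg_right (hc x hx y hy s hs0 hs1) hr.le)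
    (fun t ht => by
      rcases le_or_gt t 0 with h | h
      · exact ⟨lo, left_mem_Icc.2 hlh, h.trans (by positivity)⟩
      obtain ⟨x, hx, hax⟩ := hsup (t ^ 2 * M) (by
        have : t ^ 2 < 1 := by nlinarith
        nlinarith)
      refine ⟨x, hx, (le_div_iff₀ hr).2 ?_⟩
      rw [← Real.sqrt_sq h.le, ← Real.sqrt_mul (sq_nonneg t)]
      exact Real.sqrt_le_sqrt hax.le)
  simp only [div_pow, Real.sq_sqrt (h0 _), Real.sq_sqrt hM.le, integral_div] at h
  set F := ∫ x in Icc lo hi, √(a x)
  set V := ∫ x in Icc lo hi, a x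
  have hV : 0 ≤ V := integral_nonneg fun x => h0 x
  have h' : hi - lo + 3 * V / M ≤ 4 * F / √M := by
    calc _ = hi - lo + 3 * (V / M) := by ring
      _ ≤ 4 * (F / √M) := h
      _ = _ := by ring
  calc M * (hi - lo + 3 * V / M) ^ 2 ≤ M * (4 * F / √M) ^ 2 := by
        refine mul_le_mul_of_nonneg_left (pow_le_pow_left₀ ?_ h' 2) hM.le
        have : 0 ≤ 3 * V / M := by positivity
        linarith
    _ = 16 * F ^ 2 := by
        rw [div_pow, Real.sq_sqrt hM.le]; field_simp; ring

end Vale.Agent.P237.General
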