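import Vale.Agent.P237.General.Poly

/-!
Sections against projections, and the bound for the projection of the zonotope of a polytope.
-/

namespace Vale.Agent.P237.General

open MeasureTheory Set
open scoped RealInnerProductSpace ENNReal Pointwise

theorem inner_plane (a b : E2) : ⟪a, b⟫ = a 0 * b 0 + a 1 * b 1 := by
  simp [PiLp.inner_apply, Fin.sum_univ_two, mul_comm]

@[simp] theorem inner_zero_mk (e : Frame) (p : E2 × ℝ) : ⟪e 0, mk e p⟫ = p.1 0 := by
  simpa [chart_apply] using congrArg (fun q : E2 × ℝ => q.1 0) (chart_mk e p)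

@[simp] theorem inner_one_mk (e : Frame) (p : E2 × ℝ) : ⟪e 1, mk e p⟫ = p.1 1 := by
  simpa [chart_apply] using congrArg (fun q : E2 × ℝ => q.1 1) (chart_mk e p)

@[simp] theorem inner_two_mk (e : Frame) (p : E2 × ℝ) : ⟪e 2, mk e p⟫ = p.2 :=
  congrArg Prod.snd (chart_mk e p)

variable {ι : Type*} [Fintype ι]

/-- Half the facet weighted absolute projections. -/
noncomputable def supp (n : ι → E3) (h : ι → ℝ) (x : E3) : ℝ :=
  (∑ i, facet n h i * |⟪n i, x⟫|) / 2

/-- The zonotope of the facet vectors. -/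
noncomputable def zon (n : ι → E3) (h : ι → ℝ) : Set E3 :=
  zs (fun i => facet n h i • n i) Finset.univ

/-- Section area. -/
noncomputable def sec (e : Frame) (K : Set E3) (z : ℝ) : ℝ := volume.real (slice e K z)

/-- Maximal section area. -/
noncomputable def secMax (e : Frame) (K : Set E3) : ℝ := sSup (range (sec e K))

theorem measurable_slice_volume (e : Frame) {K : Set E3} (hK : IsCompact K) :
    Measurable fun z => volume (slice e K z) := by
  simpa only [preimage_slice] using measurable_measure_prodMk_right (μ := (volume : Measure E2))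
    (hK.image (continuous_chart e)).measurableSet

theorem integrable_sec (e : Frame) {K : Set E3} (hK : IsCompact K) :
    Integrable (sec e K) ∧ ∫ z, sec e K z = volume.real K := by
  have hfin : ∫⁻ z, volume (slice e K z) ≠ ⊤ := by
    rw [← volume_eq_lintegral e hK]; exact hK.measure_lt_top.ne
  refine ⟨integrable_toReal_of_lintegral_ne_top (measurable_slice_volume e hK).aemeasurable hfin, ?_⟩
  change ∫ z, (volume (slice e K z)).toReal = _
  rw [integral_toReal (measurable_slice_volume e hK).aemeasurable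
    (Filter.Eventually.of_forall fun z => (isCompact_slice e hK z).measure_lt_top),
    ← volume_eq_lintegral e hK]
  rfl

theorem sec_le_shadow (e : Frame) {K : Set E3} (hK : IsCompact K) (z : ℝ) :
    sec e K z ≤ volume.real (coords (e 0) (e 1) '' K) := by
  refine measureReal_mono ?_ (hK.image (continuous_coords _ _)).measure_lt_top.ne
  intro y hy
  exact ⟨_, hy, congrArg Prod.fst (chart_mk e (y, z))⟩

theorem bddAbove_sec (e : Frame) {K : Set E3} (hK : IsCompact K) : BddAbove (range (sec e K)) :=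
  ⟨_, forall_mem_range.2 (sec_le_shadow e hK)⟩

theorem sec_le_secMax (e : Frame) {K : Set E3} (hK : IsCompact K) (z : ℝ) :
    sec e K z ≤ secMax e K := le_csSup (bddAbove_sec e hK) (mem_range_self z)

theorem secMax_pos (e : Frame) {K : Set E3} (hK : IsCompact K) (hV : 0 < volume.real K) :
    0 < secMax e K := by
  by_contra hc
  have : ∀ z, sec e K z = 0 := fun z =>
    le_antisymm ((sec_le_secMax e hK z).trans (not_lt.1 hc)) measureReal_nonneg
  rw [← (integrable_sec e hK).2] at hV
  simp [this] at hV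

/-- An oblique projection covers a section. -/
theorem sec_le_area (e : Frame) {K : Set E3} (hK : IsCompact K) {d : E3} (hd : ‖d‖ = 1) (z : ℝ) :
    |⟪e 2, d⟫| * sec e K z ≤ area K d := by
  set u0 := ⟪e 0, d⟫
  set u1 := ⟪e 1, d⟫
  set u2 := ⟪e 2, d⟫
  have hu2 : u0 ^ 2 + u1 ^ 2 + u2 ^ 2 = 1 := by
    have h := e.sum_sq_inner_right d
    rw [Fin.sum_univ_three, hd] at h
    simpa using h
  obtain ⟨p, q, r, hpq, h0, h1⟩ :
      ∃ p q r : ℝ, p ^ 2 + q ^ 2 = 1 ∧ u0 = r * q ∧ u1 = -(r * p) := by
    have hr2 : √(u0 ^ 2 + u1 ^ 2) ^ 2 = u0 ^ 2 + u1 ^ 2 := Real.sq_sqrt (by positivity)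
    generalize √(u0 ^ 2 + u1 ^ 2) = r at hr2
    rcases eq_or_ne r 0 with hr | hr
    · exact ⟨1, 0, 0, by norm_num, by nlinarith [sq_nonneg u1], by nlinarith [sq_nonneg u0]⟩
    · refine ⟨-u1 / r, u0 / r, r, ?_, by field_simp, by field_simp⟩
      field_simp
      linarith
  have hr : r ^ 2 + u2 ^ 2 = 1 := by
    rw [h0, h1] at hu2
    linear_combination hu2 - r ^ 2 * hpq
  have hdd : d = mk e (!₂[u0, u1], u2) := by
    conv_lhs => rw [← mk_chart e d]
    rfl
  set v₁ : E3 := mk e (!₂[p, q], 0) with hv₁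
  set v₂ : E3 := mk e (!₂[u2 * q, -(u2 * p)], -r) with hv₂
  have hmm : ∀ a b : E2 × ℝ, ⟪mk e a, mk e b⟫ = a.1 0 * b.1 0 + a.1 1 * b.1 1 + a.2 * b.2 := by
    intro a b
    rw [inner_mk, inner_zero_mk, inner_one_mk, inner_two_mk]
    ring
  have hn : ∀ a : E2 × ℝ, a.1 0 ^ 2 + a.1 1 ^ 2 + a.2 ^ 2 = 1 → ‖mk e a‖ = 1 := by
    intro a ha
    have h := real_inner_self_eq_norm_sq (mk e a)
    rw [hmm] at h
    nlinarith [norm_nonneg (mk e a)]
  rw [area_eq_coords hK hd (hn _ (by simpa using hpq) : ‖v₁‖ = 1)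
    (hn _ (by simp; linear_combination hr + u2 ^ 2 * hpq) : ‖v₂‖ = 1)
    (by rw [hdd, hmm]; simp [h0, h1]; ring)
    (by rw [hdd, hmm]; simp [h0, h1]; linear_combination (r * u2) * hpq)
    (by rw [hmm]; simp; ring)]
  set M : Matrix (Fin 2) (Fin 2) ℝ := !![p, q; u2 * q, -(u2 * p)]
  set L := Matrix.toEuclideanLin M
  have hdet : LinearMap.det L = -u2 := by
    rw [show L = Matrix.toLin (EuclideanSpace.basisFun (Fin 2) ℝ).toBasis
        (EuclideanSpace.basisFun (Fin 2) ℝ).toBasis M by
      simp [L, Matrix.toEuclideanLin_eq_toLin_orthonormal],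
      LinearMap.det_toLin, Matrix.det_fin_two]
    simp [M]
    linear_combination (-u2) * hpq
  set c : E2 := !₂[0, -(r * z)]
  have hsub : (fun y => c + y) '' (L '' slice e K z) ⊆ coords v₁ v₂ '' K := by
    rintro _ ⟨_, ⟨y, hy, rfl⟩, rfl⟩
    refine ⟨_, hy, ?_⟩
    ext i
    fin_cases i <;>
      simp [hv₁, hv₂, hmm, L, M, c, Matrix.toLpLin_apply, dotProduct,
        Fin.sum_univ_two] <;> ring
  have h := measureReal_mono (μ := (volume : Measure E2)) hsub
    (hK.image (continuous_coords _ _)).measure_lt_top.ne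
  rw [measureReal_def, image_add_left, measure_preimage_add, Measure.addHaar_image_linearMap,
    hdet, ENNReal.toReal_mul, ENNReal.toReal_ofReal (abs_nonneg _), abs_neg] at h
  exact h

/-- Widths of slices integrate to a projection area. -/
theorem integral_wid (e : Frame) {K : Set E3} (hK : IsCompact K) {v : E2} (hv : ‖v‖ = 1) :
    Integrable (fun z => wid (slice e K z) v) ∧
      ∫ z, wid (slice e K z) v = area K (mk e (rot v, 0)) := by
  set v₁ : E3 := mk e (v, 0) with hv₁
  have hv2 : v 0 ^ 2 + v 1 ^ 2 = 1 := by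
    have := EuclideanSpace.real_norm_sq_eq v
    simpa [hv, Fin.sum_univ_two] using this.symm
  have hn : ∀ y : E2, y 0 ^ 2 + y 1 ^ 2 = 1 → ‖mk e (y, (0 : ℝ))‖ = 1 := by
    intro y hy
    have h : (‖mk e (y, (0 : ℝ))‖) ^ 2 = 1 := by
      rw [← real_inner_self_eq_norm_sq, inner_mk, inner_zero_mk, inner_one_mk, inner_two_mk]
      simp
      linarith
    nlinarith [norm_nonneg (mk e (y, (0 : ℝ)))]
  have hflat : ∀ (y : E2), ⟪e 2, mk e (y, (0 : ℝ))⟫ = 0 := fun y => by
    simpa [chart_apply] using congrArg Prod.snd (chart_mk e (y, (0 : ℝ)))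
  set J : Set (ℝ × ℝ) := (fun y : E2 => ((y 0, y 1) : ℝ × ℝ)) '' (coords v₁ (e 2) '' K)
  have hJ : IsCompact J := (hK.image (continuous_coords _ _)).image (by fun_prop)
  have hfib : ∀ z, (fun s => (s, z)) ⁻¹' J = (fun y => ⟪v, y⟫) '' slice e K z := by
    intro z
    ext s
    have hin : ∀ x : E3, ⟪v₁, x⟫ = ⟪v, coords (e 0) (e 1) x⟫ := fun x => by
      rw [hv₁, real_inner_comm, inner_mk, inner_plane, coords_zero, coords_one]
      simp
    constructor
    · rintro ⟨_, ⟨x, hx, rfl⟩, hxs⟩
      simp only [Prod.mk.injEq, coords_zero, coords_one] at hxs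
      refine ⟨coords (e 0) (e 1) x, ?_, ?_⟩
      · have h' : mk e (coords (e 0) (e 1) x, z) = x := by rw [← hxs.2]; exact mk_chart e x
        simpa [slice, h'] using hx
      · simp only
        rw [← hin, hxs.1]
    · rintro ⟨y, hy, rfl⟩
      refine ⟨_, ⟨_, hy, rfl⟩, ?_⟩
      have h2 : ⟪e 2, mk e (y, z)⟫ = z := congrArg Prod.snd (chart_mk e (y, z))
      have h1 : coords (e 0) (e 1) (mk e (y, z)) = y := congrArg Prod.fst (chart_mk e (y, z))
      simp only [coords_zero, coords_one, hin, h1, h2]
  have hm : Measurable fun z => volume ((fun y => ⟪v, y⟫) '' slice e K z) := by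
    simpa only [hfib] using measurable_measure_prodMk_right (μ := (volume : Measure ℝ))
      hJ.measurableSet
  have hlin : ∫⁻ z, volume ((fun y => ⟪v, y⟫) '' slice e K z) = volume J := by
    rw [Measure.volume_eq_prod, Measure.prod_apply_symm hJ.measurableSet]
    simp only [hfib]
  refine ⟨integrable_toReal_of_lintegral_ne_top hm.aemeasurable
    (by rw [hlin]; exact hJ.measure_lt_top.ne), ?_⟩
  change ∫ z, (volume ((fun y => ⟪v, y⟫) '' slice e K z)).toReal = _
  rw [integral_toReal hm.aemeasurable (Filter.Eventually.of_forall fun z =>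
    ((isCompact_slice e hK z).image (by fun_prop)).measure_lt_top), hlin]
  rw [area_eq_coords hK (hn _ (by simp [rot]; linarith)) (hn v hv2) (e.norm_eq_one 2)
    (by
      rw [real_inner_comm, inner_mk]
      simp [rot]
      ring)
    (by rw [real_inner_comm]; exact hflat _) (by rw [real_inner_comm]; exact hflat _)]
  rw [measureReal_def, ← measurePreserving_pair.measure_preimage hJ.measurableSet.nullMeasurableSet,
    Function.Injective.preimage_image fun a b hab => by
      ext i
      fin_cases i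
      · exact congrArg Prod.fst hab
      · exact congrArg Prod.snd hab]

variable {n : ι → E3} {h : ι → ℝ} (hp : IsPoly n h)

theorem supp_smul (n : ι → E3) (h : ι → ℝ) (c : ℝ) (x : E3) :
    supp n h (c • x) = |c| * supp n h x := by
  simp only [supp, real_inner_smul_right, abs_mul]
  rw [mul_div_assoc', Finset.mul_sum]
  congr 1
  exact Finset.sum_congr rfl fun i _ => by ring

include hp

theorem supp_eq (x : E3) (hx : x ≠ 0) :
    supp n h x = ‖x‖ * area (poly n h) (‖x‖⁻¹ • x) := by
  have hu : ‖(‖x‖⁻¹ : ℝ) • x‖ = 1 := norm_smul_inv_norm hx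
  rw [area_eq_half hp hu, ← supp, supp_smul,
    abs_of_nonneg (inv_nonneg.2 (norm_nonneg x))]
  field_simp [norm_ne_zero_iff.2 hx]

theorem secMax_mul_le (e : Frame) (d : E3) :
    |⟪e 2, d⟫| * secMax e (poly n h) ≤ supp n h d := by
  rcases eq_or_ne d 0 with rfl | hd
  · simp [supp]
  have hne : 0 < ‖d‖ := norm_pos_iff.2 hd
  rcases eq_or_lt_of_le (abs_nonneg ⟪e 2, d⟫) with h0 | h0
  · rw [← h0, zero_mul, supp_eq hp d hd]
    exact mul_nonneg (norm_nonneg _) measureReal_nonneg
  rw [mul_comm, ← le_div_iff₀ h0]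
  refine csSup_le (range_nonempty _) (forall_mem_range.2 fun z => ?_)
  rw [le_div_iff₀ h0, supp_eq hp d hd]
  have := mul_le_mul_of_nonneg_left
    (sec_le_area e hp.compact (d := ‖d‖⁻¹ • d) (norm_smul_inv_norm hd) z) hne.le
  rw [real_inner_smul_right, abs_mul, abs_inv, abs_norm] at this
  calc sec e (poly n h) z * |⟪e 2, d⟫|
      = ‖d‖ * (‖d‖⁻¹ * |⟪e 2, d⟫| * sec e (poly n h) z) := by field_simp
    _ ≤ _ := this

theorem supp_pos {d : E3} (hd : d ≠ 0) : 0 < supp n h d := by
  obtain ⟨e, he⟩ := exists_frame (u := ‖d‖⁻¹ • d) (norm_smul_inv_norm hd)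
  refine lt_of_lt_of_le (mul_pos ?_ (secMax_pos e hp.compact (volume_poly_pos hp)))
    (secMax_mul_le hp e d)
  rw [he, real_inner_smul_left, real_inner_self_eq_norm_sq]
  have := norm_pos_iff.2 hd
  positivity

theorem integral_wid_le (e : Frame) (v : E2) (I : Set ℝ) :
    IntegrableOn (fun z => wid (slice e (poly n h) z) v) I ∧
    ∫ z in I, wid (slice e (poly n h) z) v ≤ supp n h (mk e (rot v, 0)) := by
  rcases eq_or_ne v 0 with rfl | hv
  · have : ∀ z, wid (slice e (poly n h) z) (0 : E2) = 0 := fun z => by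
      rw [show (0 : E2) = (0 : ℝ) • 0 by simp, wid_smul]; simp
    simp [this, supp, mk, rot, IntegrableOn]
  set τ := ‖v‖
  have hτ : 0 < τ := norm_pos_iff.2 hv
  obtain ⟨v', hv', hvv⟩ : ∃ v' : E2, ‖v'‖ = 1 ∧ v = τ • v' :=
    ⟨τ⁻¹ • v, norm_smul_inv_norm hv, by rw [smul_inv_smul₀ hτ.ne']⟩
  clear_value τ
  subst hvv
  obtain ⟨hi, he⟩ := integral_wid e hp.compact hv'
  have hmk : mk e (rot (τ • v'), 0) = τ • mk e (rot v', 0) := by
    simp [mk, rot_smul, smul_add, smul_smul]
  have hnorm : ‖mk e (rot v', (0 : ℝ))‖ = 1 := by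
    have h2 : v' 0 ^ 2 + v' 1 ^ 2 = 1 := by
      have := EuclideanSpace.real_norm_sq_eq v'
      simpa [hv', Fin.sum_univ_two] using this.symm
    have h : ‖mk e (rot v', (0 : ℝ))‖ ^ 2 = 1 := by
      rw [← real_inner_self_eq_norm_sq, inner_mk, inner_zero_mk, inner_one_mk, inner_two_mk]
      simp [rot]
      linarith
    nlinarith [norm_nonneg (mk e (rot v', (0 : ℝ)))]
  simp only [wid_smul, abs_of_pos hτ]
  refine ⟨(hi.const_mul τ).integrableOn, ?_⟩
  rw [hmk, supp_smul, abs_of_pos hτ, show supp n h (mk e (rot v', (0 : ℝ)))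
    = area (poly n h) (mk e (rot v', 0)) from (area_eq_half hp hnorm).symm,
    integral_const_mul, ← he]
  refine mul_le_mul_of_nonneg_left (setIntegral_le_integral hi
    (Filter.Eventually.of_forall fun z => wid_nonneg _ _)) hτ.le

/-- The projected zonotope against the profile of sections. -/
theorem facet_bound (e : Frame) :
    secMax e (poly n h) *
      (wid (poly n h) (e 2) + 3 * volume.real (poly n h) / secMax e (poly n h)) ^ 2
      ≤ 4 * area (zon n h) (e 2) := by
  set K := poly n h with hKdef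
  obtain ⟨lo, hi, hlh, hI⟩ := icc_of_convex
    (hp.compact.image (by fun_prop : Continuous fun y => ⟪e 2, y⟫))
    ((convex_poly n h).linear_image (innerₛₗ ℝ (e 2)))
    ((hp.inner.mono interior_subset).image _)
  have hwid : wid K (e 2) = hi - lo := by rw [wid, hI, Real.volume_real_Icc_of_le hlh]
  have hmem : ∀ z, (slice e K z).Nonempty → z ∈ Icc lo hi := by
    rintro z ⟨y, hy⟩
    rw [← hI]
    exact ⟨_, hy, by simpa [chart_apply] using congrArg Prod.snd (chart_mk e (y, z))⟩
  have hne : ∀ z ∈ Icc lo hi, (slice e K z).Nonempty := by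
    intro z hz
    rw [← hI] at hz
    obtain ⟨x, hx, hxz⟩ := hz
    refine ⟨coords (e 0) (e 1) x, ?_⟩
    have h' : mk e (coords (e 0) (e 1) x, z) = x := by rw [← hxz]; exact mk_chart e x
    simpa [slice, h'] using hx
  have hout : ∀ z, z ∉ Icc lo hi → sec e K z = 0 := fun z hz => by
    rw [sec, Set.not_nonempty_iff_eq_empty.1 (fun hn => hz (hmem z hn)), measureReal_empty]
  have hV : ∫ z in Icc lo hi, sec e K z = volume.real K := by
    rw [setIntegral_eq_integral_of_forall_compl_eq_zero hout, (integrable_sec e hp.compact).2]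
  have hM := secMax_pos e hp.compact (volume_poly_pos hp)
  have hsm : Measurable (sec e K) := (measurable_slice_volume e hp.compact).ennreal_toReal
  have hprof := profile hlh hM hsm (fun z => measureReal_nonneg) (sec_le_secMax e hp.compact) (by
      intro x hx y hy s hs0 hs1
      refine Real.le_sqrt_of_sq_le ?_
      have hsq : ∀ (c : ℝ), 0 ≤ c → ∀ S : Set E2,
          volume.real (c • S) = c ^ 2 * volume.real S := by
        intro c hc S
        rw [measureReal_def, Measure.addHaar_smul, ENNReal.toReal_mul, finrank_euclideanSpace_fin,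
          ENNReal.toReal_ofReal (abs_nonneg _), abs_of_nonneg (by positivity), ← measureReal_def]
      refine bm_root ((isCompact_slice e hp.compact x).smul (1 - s))
        ((isCompact_slice e hp.compact y).smul s) (isCompact_slice e hp.compact _)
        ((hne x hx).smul_set) ((hne y hy).smul_set) ?_ (mul_nonneg (sub_nonneg.2 hs1)
          (Real.sqrt_nonneg _)) (by positivity) ?_ ?_
      · rintro _ ⟨_, ⟨a, ha, rfl⟩, _, ⟨b, hb, rfl⟩, rfl⟩
        have := convex_poly n h ha hb (sub_nonneg.2 hs1) hs0 (by ring)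
        simp only [slice, mem_ofPred_eq]
        convert this using 1
        simp only [mk, PiLp.add_apply, PiLp.smul_apply, smul_eq_mul]
        module
      · rw [hsq _ (sub_nonneg.2 hs1), mul_pow, sec, Real.sq_sqrt measureReal_nonneg]
      · rw [hsq _ hs0, mul_pow, sec, Real.sq_sqrt measureReal_nonneg]) (by
      intro m hm
      obtain ⟨_, ⟨x, rfl⟩, hx⟩ := exists_lt_of_lt_csSup (range_nonempty _) hm
      by_cases hxI : x ∈ Icc lo hi
      · exact ⟨x, hxI, hx⟩
      · exact ⟨lo, left_mem_Icc.2 hlh, lt_of_lt_of_le (hout x hxI ▸ hx) measureReal_nonneg⟩)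
  rw [hV, ← hwid] at hprof
  set F := ∫ z in Icc lo hi, √(sec e K z)
  have hF : 0 ≤ F := integral_nonneg fun z => Real.sqrt_nonneg _
  -- the rotated projection of the zonotope
  set w : ι → E2 := fun j => facet n h j • coords (-e 1) (e 0) (n j) with hw
  set B := volume.real (zs w Finset.univ)
  have hB : area (zon n h) (e 2) = B := by
    rw [area_eq_coords (K := zon n h) (zs_basic _ _).1 (e.norm_eq_one 2) (a := -e 1) (b := e 0)
      (by simp) (e.norm_eq_one 0) (by simp [e.inner_eq_zero]) (e.inner_eq_zero (by decide))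
      (by simp [e.inner_eq_zero])]
    change volume.real (coordsL (-e 1) (e 0) '' zon n h) = _
    rw [zon, image_zs]
    simp only [map_smul, coordsL_apply]
    rfl
  have hsupp : ∀ j, supp n h (mk e (rot (rot (w j)), 0))
      = (∑ k, |⟪rot (w k), w j⟫|) / 2 := by
    intro j
    rw [supp]
    congr 1
    refine Finset.sum_congr rfl fun k _ => ?_
    have hk := facet_nonneg n h k
    rw [← abs_of_nonneg hk, ← abs_mul, rot_rot]
    congr 1
    rw [inner_mk, inner_plane]
    simp [hw, rot, real_inner_comm (n k)]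
    ring
  set T := ∑ j, supp n h (mk e (rot (rot (w j)), 0))
  have hT : T ≤ B := by
    have h2 := zonogon_area w Finset.univ
    rw [Finset.sum_comm] at h2
    simp only [T, hsupp, ← Finset.sum_div]
    linarith
  have hsqrt : IntegrableOn (fun z => √(sec e K z)) (Icc lo hi) :=
    Integrable.mono' (integrableOn_const (C := √(secMax e K)) (by simp))
      hsm.sqrt.aestronglyMeasurable (Filter.Eventually.of_forall fun z => by
        rw [Real.norm_eq_abs, abs_of_nonneg (Real.sqrt_nonneg _)]
        exact Real.sqrt_le_sqrt (sec_le_secMax e hp.compact z))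
  have hmix : 2 * √B * F ≤ T := by
    calc 2 * √B * F = ∫ z in Icc lo hi, 2 * √B * √(sec e K z) := (integral_const_mul _ _).symm
      _ ≤ ∫ z in Icc lo hi, ∑ j, wid (slice e K z) (rot (w j)) := by
          refine setIntegral_mono_on (hsqrt.const_mul _)
            (integrable_finsetSum _ fun j _ => (integral_wid_le hp e _ _).1) measurableSet_Icc ?_
          intro z hz
          have := mixed_area w Finset.univ (isCompact_slice e hp.compact z)
            (convex_slice e (convex_poly n h) z) (hne z hz)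
          calc 2 * √B * √(sec e K z) = 2 * (√(sec e K z) * √B) := by ring
            _ ≤ _ := this
      _ = ∑ j, ∫ z in Icc lo hi, wid (slice e K z) (rot (w j)) :=
          integral_finsetSum _ fun j _ => (integral_wid_le hp e _ _).1
      _ ≤ T := Finset.sum_le_sum fun j _ => (integral_wid_le hp e _ _).2
  have hBpos : 0 < B := by
    refine lt_of_lt_of_le ?_ hT
    have hwz : ∃ j, w j ≠ 0 := by
      by_contra hc
      push Not at hc
      refine (supp_pos hp (d := e 0) (by simpa using norm_ne_zero_iff.1 (by simp : ‖e 0‖ ≠ 0))).ne' ?_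
      rw [supp, Finset.sum_eq_zero, zero_div]
      intro j _
      have := congrArg (fun y : E2 => |y 1|) (hc j)
      simpa [hw, abs_mul, abs_of_nonneg (facet_nonneg n h j), real_inner_comm (e 0)] using this
    obtain ⟨j, hj⟩ := hwz
    refine Finset.sum_pos' (fun k _ => ?_) ⟨j, Finset.mem_univ _, supp_pos hp fun h0 => hj ?_⟩
    · exact div_nonneg (Finset.sum_nonneg fun i _ =>
        mul_nonneg (facet_nonneg n h i) (abs_nonneg _)) zero_le_two
    · have := congrArg (fun x => (chart e x).1) h0
      simpa [chart_mk, rot_rot] using this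
  have hsB := Real.sqrt_pos.2 hBpos
  have h4 : 2 * F ≤ √B := by
    refine le_of_mul_le_mul_left ?_ hsB
    have := Real.mul_self_sqrt hBpos.le
    nlinarith [hmix.trans hT]
  rw [hB, hwid.symm.trans rfl] at *
  nlinarith [hprof, Real.sq_sqrt hBpos.le, mul_le_mul h4 h4 (by positivity) hsB.le]

end Vale.Agent.P237.General
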