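import Vale.Agent.P237.Main

/-!
Fibrewise formula for the volume of a convex set plus a segment.
-/

namespace Vale.Agent.P237.General

open MeasureTheory Set
open scoped RealInnerProductSpace ENNReal Pointwise

/-- Length of the image of a set under a linear functional given by a vector. -/
noncomputable def wid {V : Type*} [NormedAddCommGroup V] [InnerProductSpace ℝ V] (S : Set V)
    (v : V) : ℝ :=
  volume.real ((fun y => ⟪v, y⟫) '' S)

theorem icc_of_convex {I : Set ℝ} (hI : IsCompact I) (hIc : Convex ℝ I) (hne : I.Nonempty) :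
    ∃ a b, a ≤ b ∧ I = Icc a b := by
  refine ⟨sInf I, sSup I, ?_, eq_Icc_of_connected_compact ⟨hne, hIc.isPreconnected⟩ hI⟩
  exact csInf_le_csSup hne hI.bddBelow hI.bddAbove

theorem segment_zero_eq {V : Type*} [AddCommGroup V] [Module ℝ V] (w : V) :
    segment ℝ 0 w = (fun s : ℝ => s • w) '' Icc (0 : ℝ) 1 := by
  rw [segment_eq_image']
  simp

theorem isCompact_segment {V : Type*} [NormedAddCommGroup V] [NormedSpace ℝ V] (w : V) :
    IsCompact (segment ℝ 0 w) := by
  rw [segment_zero_eq]
  exact isCompact_Icc.image (by fun_prop)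

theorem wid_nonneg {V : Type*} [NormedAddCommGroup V] [InnerProductSpace ℝ V] (S : Set V)
    (v : V) : 0 ≤ wid S v := measureReal_nonneg

theorem wid_smul_set {V : Type*} [NormedAddCommGroup V] [InnerProductSpace ℝ V] (S : Set V)
    (c : ℝ) (v : V) : wid (c • S) v = |c| * wid S v := by
  unfold wid
  rw [show (fun y => ⟪v, y⟫) '' (c • S) = c • ((fun y => ⟪v, y⟫) '' S) by
    rw [← image_smul, ← image_smul, image_image, image_image]
    simp [real_inner_smul_right]]
  simp [measureReal_def, Measure.addHaar_smul]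

theorem wid_smul {V : Type*} [NormedAddCommGroup V] [InnerProductSpace ℝ V] (S : Set V)
    (c : ℝ) (v : V) : wid S (c • v) = |c| * wid S v := by
  unfold wid
  rw [show (fun y => ⟪c • v, y⟫) '' S = c • ((fun y => ⟪v, y⟫) '' S) by
    rw [← image_smul, image_image]
    simp [real_inner_smul_left]]
  simp [measureReal_def, Measure.addHaar_smul]

/-- Widths add under sums with segments. -/
theorem wid_add_segment {V : Type*} [NormedAddCommGroup V] [InnerProductSpace ℝ V] {S : Set V}
    (hS : IsCompact S) (hSc : Convex ℝ S) (hne : S.Nonempty) (v w : V) :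
    wid (S + segment ℝ 0 w) v = wid S v + |⟪v, w⟫| := by
  obtain ⟨a, b, hab, hI⟩ := icc_of_convex (hS.image (by fun_prop : Continuous fun y => ⟪v, y⟫))
    (hSc.linear_image (innerₛₗ ℝ v)) (hne.image _)
  unfold wid
  have e : (fun y => ⟪v, y⟫) '' (S + segment ℝ 0 w)
      = Icc (a + min 0 ⟪v, w⟫) (b + max 0 ⟪v, w⟫) := by
    have h1 : (fun y => ⟪v, y⟫) '' (S + segment ℝ 0 w)
        = (fun y => ⟪v, y⟫) '' S + segment ℝ 0 ⟪v, w⟫ := by
      have := Set.image_add (innerₛₗ ℝ v) (s := S) (t := segment ℝ 0 w)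
      rw [← LinearMap.coe_toAffineMap, image_segment] at this
      simpa using this
    rw [h1, hI, segment_eq_uIcc, uIcc, Icc_add_Icc hab (by simp)]
  rw [e, hI, Real.volume_real_Icc_of_le hab, Real.volume_real_Icc_of_le (by
    have := min_le_max (a := (0 : ℝ)) (b := ⟪v, w⟫); linarith)]
  rcases le_total 0 ⟪v, w⟫ with h | h <;>
    simp [h, abs_of_nonneg, abs_of_nonpos] <;> ring

/-- Adding a vertical segment. -/
theorem prod_add_segment {α : Type*} [MeasureSpace α] [SFinite (volume : Measure α)]
    [TopologicalSpace α] [T2Space α] [OpensMeasurableSpace α] [AddCommGroup α] [Module ℝ α]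
    [ContinuousAdd α] [ContinuousSMul ℝ α] [SecondCountableTopology α]
    [IsFiniteMeasureOnCompacts (volume : Measure α)]
    {S : Set (α × ℝ)} (hS : IsCompact S) (hSc : Convex ℝ S) {τ : ℝ} (hτ : 0 ≤ τ) :
    volume.real (S + segment ℝ 0 ((0 : α), τ))
      = volume.real S + τ * volume.real (Prod.fst '' S) := by
  set S' := S + segment ℝ 0 ((0 : α), τ)
  have hseg : segment ℝ 0 ((0 : α), τ) = ({0} : Set α) ×ˢ Icc (0 : ℝ) τ := by
    rw [show (0 : α × ℝ) = ((0 : α), (0 : ℝ)) from rfl, ← Prod.image_mk_segment_right,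
      segment_eq_Icc hτ]
    simp [singleton_prod]
  have hS' : IsCompact S' := by
    rw [show S' = S + ({0} : Set α) ×ˢ Icc (0 : ℝ) τ from congrArg (S + ·) hseg]
    exact hS.add (isCompact_singleton.prod isCompact_Icc)
  have hp : IsCompact (Prod.fst '' S) := hS.image continuous_fst
  have hfib : ∀ y, volume (Prod.mk y ⁻¹' S') = volume (Prod.mk y ⁻¹' S)
      + (Prod.fst '' S).indicator (fun _ => ENNReal.ofReal τ) y := by
    intro y
    by_cases hy : y ∈ Prod.fst '' S
    · have hc : IsCompact (Prod.mk y ⁻¹' S) :=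
        (hS.image continuous_snd).of_isClosed_subset (hS.isClosed.preimage (by fun_prop))
          fun q hq => ⟨(y, q), hq, rfl⟩
      have hcv : Convex ℝ (Prod.mk y ⁻¹' S) := by
        intro z hz z' hz' a b ha hb hab
        have := hSc hz hz' ha hb hab
        simpa [← add_smul, hab] using this
      have hne : (Prod.mk y ⁻¹' S).Nonempty := by
        obtain ⟨⟨y', z⟩, hm, rfl⟩ := hy
        exact ⟨z, hm⟩
      obtain ⟨a, b, hab, hI⟩ := icc_of_convex hc hcv hne
      have : Prod.mk y ⁻¹' S' = Prod.mk y ⁻¹' S + Icc (0 : ℝ) τ := by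
        ext z
        simp only [S', hseg, mem_preimage, Set.mem_add, Set.mem_prod, mem_singleton_iff,
          Prod.exists, Prod.mk_add_mk, Prod.mk.injEq]
        constructor
        · rintro ⟨y', z', hm, c, s, ⟨rfl, hs⟩, h1, h2⟩
          obtain rfl : y' = y := by simpa using h1
          exact ⟨z', hm, s, hs, h2⟩
        · rintro ⟨z', hm, s, hs, h2⟩
          exact ⟨y, z', hm, 0, s, ⟨rfl, hs⟩, by simp, h2⟩
      rw [this, indicator_of_mem hy, hI, Icc_add_Icc hab hτ, Real.volume_Icc, Real.volume_Icc,
        ← ENNReal.ofReal_add (by linarith) hτ]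
      ring_nf
    · have h1 : Prod.mk y ⁻¹' S = ∅ := eq_empty_of_forall_notMem fun z hz => hy ⟨(y, z), hz, rfl⟩
      have h2 : Prod.mk y ⁻¹' S' = ∅ := by
        refine eq_empty_of_forall_notMem fun z hz => hy ?_
        simp only [S', hseg, mem_preimage] at hz
        obtain ⟨⟨y', z'⟩, hm, ⟨c, s⟩, ⟨hc, -⟩, h⟩ := hz
        obtain rfl : c = 0 := hc
        exact ⟨(y', z'), hm, by simpa using congrArg Prod.fst h⟩
      simp [h1, h2, indicator_of_notMem hy]
  have key : volume S' = volume S + ENNReal.ofReal τ * volume (Prod.fst '' S) := by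
    rw [Measure.volume_eq_prod, Measure.prod_apply hS'.measurableSet,
      Measure.prod_apply hS.measurableSet, lintegral_congr hfib,
      lintegral_add_left (measurable_measure_prodMk_left hS.measurableSet),
      lintegral_indicator hp.measurableSet, lintegral_const, Measure.restrict_apply_univ]
  rw [measureReal_def, key, ENNReal.toReal_add hS.measure_lt_top.ne
    (ENNReal.mul_ne_top ENNReal.ofReal_ne_top hp.measure_lt_top.ne), ENNReal.toReal_mul,
    ENNReal.toReal_ofReal hτ]
  rfl

end Vale.Agent.P237.General
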