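import Vale.Agent.P237.General.Chart

/-!
Zonotopes: expansion of volumes along segments and mixed area bounds.
-/

namespace Vale.Agent.P237.General

open MeasureTheory Set
open scoped RealInnerProductSpace ENNReal Pointwise

theorem le_of_small {a b K : ℝ} (h : ∀ ε, 0 < ε → ε ≤ 1 → a ≤ b + ε * K) : a ≤ b := by
  by_contra hc
  have hd : 0 < a - b := by linarith
  set ε := min 1 ((a - b) / (2 * (|K| + 1))) with hε
  have he : 0 < ε := lt_min one_pos (by positivity)
  have h1 := h ε he (min_le_left _ _)
  have h2 : ε * (2 * (|K| + 1)) ≤ a - b := by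
    have := min_le_right (1 : ℝ) ((a - b) / (2 * (|K| + 1)))
    rw [le_div_iff₀ (by positivity)] at this
    exact this
  nlinarith [mul_le_mul_of_nonneg_left (le_abs_self K) he.le, abs_nonneg K]

/-- Brunn-Minkowski in root form. -/
theorem bm_root {d : ℕ} {A B C : Set (EuclideanSpace ℝ (Fin d))} (hA : IsCompact A)
    (hB : IsCompact B) (hC : IsCompact C) (hAn : A.Nonempty) (hBn : B.Nonempty)
    (hsub : A + B ⊆ C) {x y : ℝ} (hx : 0 ≤ x) (hy : 0 ≤ y) (hxa : x ^ d ≤ volume.real A)
    (hyb : y ^ d ≤ volume.real B) : (x + y) ^ d ≤ volume.real C := by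
  rcases hx.eq_or_lt with rfl | hx
  · obtain ⟨a, ha⟩ := hAn
    rw [zero_add]
    refine hyb.trans ?_
    rw [measureReal_def, measureReal_def]
    refine ENNReal.toReal_mono hC.measure_lt_top.ne ?_
    refine le_trans (le_of_eq ?_) (measure_mono ((image_subset_iff.2 fun b hb =>
      hsub (add_mem_add ha hb) : (fun b => a + b) '' B ⊆ C)))
    rw [image_add_left, measure_preimage_add]
  rcases hy.eq_or_lt with rfl | hy
  · obtain ⟨b, hb⟩ := hBn
    rw [add_zero]
    refine hxa.trans ?_
    rw [measureReal_def, measureReal_def]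
    refine ENNReal.toReal_mono hC.measure_lt_top.ne ?_
    refine le_trans (le_of_eq ?_) (measure_mono ((image_subset_iff.2 fun a ha =>
      hsub (add_mem_add ha hb) : (fun a => a + b) '' A ⊆ C)))
    rw [image_add_right, measure_preimage_add_right]
  set m := x + y
  have hm : 0 < m := by positivity
  set s := y / m with hs
  have hs0 : 0 < s := by positivity
  have hs1 : s < 1 := by rw [hs, div_lt_one hm]; linarith
  have key := Vale.Agent.P074.BM.bm_euclidean hs0 hs1 (hA.smul (m / x)) (hB.smul (m / y)) hC (by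
    rintro _ ⟨a, ha, rfl⟩ _ ⟨b, hb, rfl⟩
    have e1 : (1 - s) • (m / x) • a = a := by
      rw [smul_smul, show (1 - s) * (m / x) = 1 by rw [hs]; field_simp; ring, one_smul]
    have e2 : s • (m / y) • b = b := by
      rw [smul_smul, show s * (m / y) = 1 by rw [hs]; field_simp, one_smul]
    simp only [e1, e2]
    exact hsub (add_mem_add ha hb))
  have hb : ∀ (X : Set (EuclideanSpace ℝ (Fin d))) (r : ℝ), IsCompact X → 0 < r →
      r ^ d ≤ volume.real X → ENNReal.ofReal (m ^ d) ≤ volume ((m / r) • X) := by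
    intro X r hX hr h
    rw [Measure.addHaar_smul, finrank_euclideanSpace_fin, abs_of_nonneg (by positivity),
      ← ENNReal.ofReal_toReal hX.measure_lt_top.ne, ← ENNReal.ofReal_mul (by positivity)]
    refine ENNReal.ofReal_le_ofReal ?_
    calc m ^ d = (m / r) ^ d * r ^ d := by rw [← mul_pow, div_mul_cancel₀ _ hr.ne']
      _ ≤ _ := mul_le_mul_of_nonneg_left h (by positivity)
  have h1 := (mul_le_mul' (ENNReal.rpow_le_rpow (hb A x hA hx hxa) (by linarith))
    (ENNReal.rpow_le_rpow (hb B y hB hy hyb) hs0.le)).trans key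
  rw [← ENNReal.rpow_add_of_nonneg _ _ (by linarith) hs0.le, sub_add_cancel,
    ENNReal.rpow_one] at h1
  exact (ENNReal.ofReal_le_iff_le_toReal hC.measure_lt_top.ne).1 h1

variable {ι : Type*}

/-- The sum of segments from the origin. -/
noncomputable def zs {V : Type*} [AddCommGroup V] [Module ℝ V] (w : ι → V) (s : Finset ι) : Set V :=
  ∑ i ∈ s, segment ℝ 0 (w i)

theorem zs_insert {V : Type*} [AddCommGroup V] [Module ℝ V] [DecidableEq ι] (w : ι → V)
    {s : Finset ι} {a : ι} (ha : a ∉ s) : zs w (insert a s) = segment ℝ 0 (w a) + zs w s :=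
  Finset.sum_insert ha

theorem zs_basic {V : Type*} [NormedAddCommGroup V] [NormedSpace ℝ V] (w : ι → V) (s : Finset ι) :
    IsCompact (zs w s) ∧ Convex ℝ (zs w s) ∧ (zs w s).Nonempty := by
  classical
  induction s using Finset.induction_on with
  | empty => simp [zs, convex_singleton, ← Set.singleton_zero]
  | insert a s ha ih =>
    rw [zs_insert w ha]
    exact ⟨(isCompact_segment _).add ih.1, (convex_segment _ _).add ih.2.1,
      Set.Nonempty.add ⟨0, left_mem_segment ℝ _ _⟩ ih.2.2⟩

theorem image_zs {V W : Type*} [AddCommGroup V] [Module ℝ V] [AddCommGroup W] [Module ℝ W]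
    (f : V →ₗ[ℝ] W) (w : ι → V) (s : Finset ι) : f '' zs w s = zs (fun i => f (w i)) s := by
  classical
  induction s using Finset.induction_on with
  | empty => simp [zs, ← Set.singleton_zero]
  | insert a s ha ih =>
    rw [zs_insert w ha, zs_insert _ ha, Set.image_add, ih, ← LinearMap.coe_toAffineMap,
      image_segment]
    simp

theorem smul_segment_zero {V : Type*} [AddCommGroup V] [Module ℝ V] (c : ℝ) (w : V) :
    c • segment ℝ 0 w = segment ℝ 0 (c • w) := by
  rw [← image_smul, show (fun x : V => c • x) = (c • LinearMap.id : V →ₗ[ℝ] V).toAffineMap from rfl,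
    image_segment]
  simp

theorem add_smul_zs_insert {V : Type*} [AddCommGroup V] [Module ℝ V] [DecidableEq ι] (w : ι → V)
    {s : Finset ι} {a : ι} (ha : a ∉ s) (C : Set V) (ε : ℝ) :
    C + ε • zs w (insert a s) = C + segment ℝ 0 (ε • w a) + ε • zs w s := by
  rw [zs_insert w ha, smul_add, smul_segment_zero, add_assoc]

/-- A quarter turn. -/
noncomputable def rot (w : E2) : E2 := !₂[-w 1, w 0]

theorem rot_smul (c : ℝ) (w : E2) : rot (c • w) = c • rot w := by
  ext i; fin_cases i <;> simp [rot]

theorem rot_rot (w : E2) : rot (rot w) = -w := by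
  ext i; fin_cases i <;> simp [rot]

theorem area_expand (w : ι → E2) (s : Finset ι) : ∀ (C : Set E2), IsCompact C → Convex ℝ C →
    C.Nonempty → ∀ ε : ℝ, 0 ≤ ε →
    volume.real C + ε * ∑ i ∈ s, wid C (rot (w i)) ≤ volume.real (C + ε • zs w s) ∧
    volume.real (C + ε • zs w s) ≤ volume.real C + ε * ∑ i ∈ s, wid C (rot (w i))
      + ε ^ 2 * ∑ i ∈ s, ∑ j ∈ s, |⟪rot (w i), w j⟫| := by
  classical
  induction s using Finset.induction_on with
  | empty =>
    intro C hC hCc hne ε hε
    have : C + ε • zs w (∅ : Finset ι) = C := by simp [zs]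
    simp [this]
  | insert a s ha ih =>
    intro C hC hCc hne ε hε
    have hC' : IsCompact (C + segment ℝ 0 (ε • w a)) := hC.add (isCompact_segment _)
    have h0 : volume.real (C + segment ℝ 0 (ε • w a))
        = volume.real C + ε * wid C (rot (w a)) := by
      rw [planar_add_segment hC hCc]
      congr 1
      rw [← abs_of_nonneg hε, ← wid_smul, abs_of_nonneg hε, ← rot_smul]
      rfl
    obtain ⟨hl, hu⟩ := ih _ hC' (hCc.add (convex_segment _ _))
      (hne.add ⟨0, left_mem_segment ℝ _ _⟩) ε hε
    have hw : ∀ i, wid (C + segment ℝ 0 (ε • w a)) (rot (w i))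
        = wid C (rot (w i)) + ε * |⟪rot (w i), w a⟫| := fun i => by
      rw [wid_add_segment hC hCc hne, real_inner_smul_right, abs_mul, abs_of_nonneg hε]
    simp only [hw, Finset.sum_add_distrib, ← Finset.mul_sum, h0] at hl hu
    rw [add_smul_zs_insert w ha, Finset.sum_insert ha, Finset.sum_insert ha, Finset.sum_insert ha]
    simp only [Finset.sum_insert ha, Finset.sum_add_distrib]
    have p1 : 0 ≤ ∑ i ∈ s, |⟪rot (w i), w a⟫| := Finset.sum_nonneg fun i _ => abs_nonneg _
    have p2 : 0 ≤ ∑ j ∈ s, |⟪rot (w a), w j⟫| := Finset.sum_nonneg fun i _ => abs_nonneg _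
    have p3 := abs_nonneg ⟪rot (w a), w a⟫
    constructor
    · nlinarith [hl, mul_nonneg (mul_nonneg hε hε) p1]
    · nlinarith [hu, mul_nonneg (mul_nonneg hε hε) p2, mul_nonneg (mul_nonneg hε hε) p3]

theorem wid_zs {V : Type*} [NormedAddCommGroup V] [InnerProductSpace ℝ V] (w : ι → V)
    (s : Finset ι) (v : V) : wid (zs w s) v = ∑ i ∈ s, |⟪v, w i⟫| := by
  classical
  induction s using Finset.induction_on with
  | empty => simp [zs, wid, ← Set.singleton_zero, measureReal_def]
  | insert a s ha ih =>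
    obtain ⟨h1, h2, h3⟩ := zs_basic w s
    rw [zs_insert w ha, add_comm, wid_add_segment h1 h2 h3, ih, Finset.sum_insert ha, add_comm]

theorem zonogon_area (w : ι → E2) (s : Finset ι) :
    ∑ i ∈ s, ∑ j ∈ s, |⟪rot (w i), w j⟫| ≤ 2 * volume.real (zs w s) := by
  obtain ⟨h1, h2, h3⟩ := zs_basic w s
  refine le_of_small (K := volume.real (zs w s)) fun ε hε _ => ?_
  have h := (area_expand w s _ h1 h2 h3 ε hε.le).1
  simp only [wid_zs] at h
  rw [show zs w s + ε • zs w s = (1 + ε) • zs w s by
    rw [h2.add_smul zero_le_one hε.le, one_smul], measureReal_def (s := (1 + ε) • zs w s),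
    Measure.addHaar_smul, ENNReal.toReal_mul, finrank_euclideanSpace_fin,
    ENNReal.toReal_ofReal (abs_nonneg _), abs_of_nonneg (by positivity), ← measureReal_def] at h
  nlinarith [h, hε]

/-- Mixed area of a convex set and a zonogon. -/
theorem mixed_area (w : ι → E2) (s : Finset ι) {C : Set E2} (hC : IsCompact C) (hCc : Convex ℝ C)
    (hne : C.Nonempty) :
    2 * (√(volume.real C) * √(volume.real (zs w s))) ≤ ∑ i ∈ s, wid C (rot (w i)) := by
  obtain ⟨h1, h2, h3⟩ := zs_basic w s
  refine le_of_small (K := ∑ i ∈ s, ∑ j ∈ s, |⟪rot (w i), w j⟫|) fun ε hε _ => ?_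
  have hu := (area_expand w s C hC hCc hne ε hε.le).2
  have hb : (ε * √(volume.real (zs w s))) ^ 2 ≤ volume.real (ε • zs w s) := le_of_eq (by
    rw [mul_pow, Real.sq_sqrt measureReal_nonneg, measureReal_def (s := ε • zs w s),
      Measure.addHaar_smul, ENNReal.toReal_mul, finrank_euclideanSpace_fin,
      ENNReal.toReal_ofReal (abs_nonneg _), abs_of_nonneg (by positivity), ← measureReal_def])
  have hl := (bm_root hC (h1.smul ε) (hC.add (h1.smul ε)) hne (h3.smul_set) subset_rfl
    (Real.sqrt_nonneg _) (by positivity) (Real.sq_sqrt measureReal_nonneg).le hb).trans hu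
  have e := Real.sq_sqrt (measureReal_nonneg (μ := (volume : Measure E2)) (s := C))
  refine le_of_mul_le_mul_left ?_ hε
  nlinarith [hl, e, mul_nonneg (mul_nonneg hε.le hε.le)
    (measureReal_nonneg (μ := (volume : Measure E2)) (s := zs w s)),
    Real.sq_sqrt (measureReal_nonneg (μ := (volume : Measure E2)) (s := zs w s))]

theorem area_mono {C C' : Set E3} (hC' : IsCompact C') (h : C ⊆ C') (u : E3) :
    area C u ≤ area C' u := by
  refine measureReal_mono (image_mono h) ?_
  exact (hC'.image (ContinuousLinearMap.continuous _)).measure_lt_top.ne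

theorem volume_expand (A : ι → ℝ) (n : ι → E3) (hA : ∀ i, 0 ≤ A i) (hn : ∀ i, ‖n i‖ = 1)
    (s : Finset ι) : ∀ (C : Set E3), IsCompact C → Convex ℝ C → ∀ ε : ℝ, 0 ≤ ε →
    volume.real C + ε * ∑ i ∈ s, A i * area C (n i)
      ≤ volume.real (C + ε • zs (fun i => A i • n i) s) := by
  classical
  induction s using Finset.induction_on with
  | empty =>
    intro C hC hCc ε hε
    simp [zs]
  | insert a s ha ih =>
    intro C hC hCc ε hε
    have hC' : IsCompact (C + segment ℝ 0 (ε • A a • n a)) := hC.add (isCompact_segment _)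
    have h0 : volume.real (C + segment ℝ 0 (ε • A a • n a))
        = volume.real C + ε * A a * area C (n a) := by
      rw [smul_smul]
      exact volume_add_segment hC hCc (hn a) (mul_nonneg hε (hA a))
    have hl := ih _ hC' (hCc.add (convex_segment _ _)) ε hε
    rw [add_smul_zs_insert _ ha, Finset.sum_insert ha]
    have hm : ∑ i ∈ s, A i * area C (n i)
        ≤ ∑ i ∈ s, A i * area (C + segment ℝ 0 (ε • A a • n a)) (n i) :=
      Finset.sum_le_sum fun i _ => mul_le_mul_of_nonneg_left
        (area_mono hC' (fun x hx => ⟨x, hx, 0, left_mem_segment ℝ _ _, add_zero x⟩) _) (hA i)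
    nlinarith [hl, h0, mul_le_mul_of_nonneg_left hm hε]

theorem zonotope_volume (A : ι → ℝ) (n : ι → E3) (hA : ∀ i, 0 ≤ A i) (hn : ∀ i, ‖n i‖ = 1)
    (s : Finset ι) : ∑ i ∈ s, A i * area (zs (fun i => A i • n i) s) (n i)
      ≤ 3 * volume.real (zs (fun i => A i • n i) s) := by
  obtain ⟨h1, h2, -⟩ := zs_basic (fun i => A i • n i) s
  refine le_of_small (K := 4 * volume.real (zs (fun i => A i • n i) s)) fun ε hε hε1 => ?_
  have h := volume_expand A n hA hn s _ h1 h2 ε hε.le
  rw [show zs (fun i => A i • n i) s + ε • zs (fun i => A i • n i) s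
      = (1 + ε) • zs (fun i => A i • n i) s by
    rw [h2.add_smul zero_le_one hε.le, one_smul],
    measureReal_def (s := (1 + ε) • zs (fun i => A i • n i) s), Measure.addHaar_smul,
    ENNReal.toReal_mul, finrank_euclideanSpace_fin, ENNReal.toReal_ofReal (abs_nonneg _),
    abs_of_nonneg (by positivity), ← measureReal_def] at h
  have hv := measureReal_nonneg (μ := (volume : Measure E3)) (s := zs (fun i => A i • n i) s)
  refine le_of_mul_le_mul_left ?_ hε
  nlinarith [h, mul_nonneg (mul_nonneg hε.le hε.le) hv,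
    mul_le_mul_of_nonneg_right hε1 (mul_nonneg (mul_nonneg hε.le hε.le) hv)]

end Vale.Agent.P237.General
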